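import Mathlib

/-!
# P369: states, entropy and the beam splitter on the bosonic Fock space
-/

namespace Vale.Agent.P369.Fock

open scoped ENNReal InnerProductSpace CStarAlgebra

/-- Occupation numbers of `n` modes. -/
abbrev Idx (n : ℕ) := Fin n → ℕ

/-- The `n`-mode Fock space `ℓ²(ℕ^n)`. -/
noncomputable abbrev Space (n : ℕ) := lp (fun _ : Idx n => ℂ) 2

/-- A bounded operator on the Fock space. -/
noncomputable abbrev Op (n : ℕ) := Space n →L[ℂ] Space n

variable {n : ℕ}

/-- Mathlib's functional calculus of self-adjoint elements of a C⋆-algebra, at this algebra. -/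
instance calculus (n : ℕ) : ContinuousFunctionalCalculus ℝ (Op n) IsSelfAdjoint :=
  IsSelfAdjoint.instContinuousFunctionalCalculus

/-- The number state `|a⟩`. -/
noncomputable def ket (a : Idx n) : Space n := lp.single 2 a (1 : ℂ)

/-- The matrix element `⟨a|T|b⟩`. -/
noncomputable def entry (T : Op n) (a b : Idx n) : ℂ := ⟪ket a, T (ket b)⟫_ℂ

/-- A density operator: positive, with trace one. -/
def IsState (ρ : Op n) : Prop :=
  ρ.IsPositive ∧ HasSum (fun a => (entry ρ a a).re) 1

/-- The total number of photons of a number state. -/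
def photons (a : Idx n) : ℕ := ∑ i, a i

/-- Finite mean photon number. -/
def FinitePhotons (ρ : Op n) : Prop :=
  Summable fun a => (photons a : ℝ) * (entry ρ a a).re

/-- The von Neumann entropy `Tr (-ρ log ρ)` in nats, with values in `[0,∞]`: the trace of the
positive operator obtained from `ρ` by the functional calculus. -/
noncomputable def entropy (ρ : Op n) : ℝ≥0∞ :=
  ∑' a, ENNReal.ofReal (entry (cfc Real.negMulLog ρ) a a).re

/-- The entropy of a thermal mode with mean photon number `t`. -/
noncomputable def g (t : ℝ) : ℝ := (t + 1) * Real.log (t + 1) - t * Real.log t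

/-- The one-mode amplitude `⟨c,d|U_η|a,b⟩` of the beam splitter, from
`U_η a† U_η† = √η a† - √(1-η) b†` and `U_η b† U_η† = √(1-η) a† + √η b†`. -/
noncomputable def amp (η : ℝ) (c d a b : ℕ) : ℝ :=
  if c + d = a + b then
    Real.sqrt (c.factorial * d.factorial / (a.factorial * b.factorial)) *
      ∑ i ∈ Finset.range (a + 1), ∑ j ∈ Finset.range (b + 1),
        if i + j = c then
          (a.choose i : ℝ) * (b.choose j : ℝ) * Real.sqrt η ^ i * (-Real.sqrt (1 - η)) ^ (a - i) *
            Real.sqrt (1 - η) ^ j * Real.sqrt η ^ (b - j)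
        else 0
  else 0

/-- The amplitude of the `n`-mode beam splitter. -/
noncomputable def ampN (η : ℝ) (c d a b : Idx n) : ℝ := ∏ i, amp η (c i) (d i) (a i) (b i)

/-- The `d`-th term of the partial trace `⟨c| Tr_b U_η (ρA ⊗ ρB) U_η† |c'⟩`. -/
noncomputable def outTerm (η : ℝ) (ρA ρB : Op n) (c c' d : Idx n) : ℂ :=
  ∑ a ∈ Fintype.piFinset fun i => Finset.range (c i + d i + 1),
    ∑ a' ∈ Fintype.piFinset fun i => Finset.range (c' i + d i + 1),
      ((ampN η c d a (fun i => c i + d i - a i) * ampN η c' d a' (fun i => c' i + d i - a' i) : ℝ) : ℂ)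
        * entry ρA a a' * entry ρB (fun i => c i + d i - a i) (fun i => c' i + d i - a' i)

/-- `ρC` is the output state of the beam splitter on the inputs `ρA`, `ρB`. -/
def IsOutput (η : ℝ) (ρA ρB ρC : Op n) : Prop :=
  IsState ρC ∧ ∀ c c', HasSum (fun d => outTerm η ρA ρB c c' d) (entry ρC c c')

/-- The vacuum state. -/
noncomputable def vacuum (n : ℕ) : Op n :=
  (innerSL ℂ (ket (fun _ => 0 : Idx n))).smulRight (ket (fun _ => 0 : Idx n))

end Vale.Agent.P369.Fock
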