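import Mathlib
import Vale.Agent.P369.Fock.Defs
import Vale.Agent.P358.Main.Entropy

/-!
# P369: the finite photon-number truncations and the finite statement behind the main theorem
-/

namespace Vale.Agent.P369.Fock

open Matrix VAgent.P358
open scoped ComplexOrder

variable {n K : ℕ}

/-- The number states with at most `K` photons. -/
def box (n K : ℕ) : Finset (Idx n) :=
  (Fintype.piFinset fun _ : Fin n => Finset.range (K + 1)).filter fun a => photons a ≤ K

theorem mem_box {a : Idx n} : a ∈ box n K ↔ photons a ≤ K := by
  simp only [box, Finset.mem_filter, Fintype.mem_piFinset, Finset.mem_range, and_iff_right_iff_imp]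
  intro h i
  have : a i ≤ photons a := Finset.single_le_sum (fun _ _ => Nat.zero_le _) (Finset.mem_univ i)
  omega

/-- The annihilation operator of mode `j` on the truncated space. -/
noncomputable def annih (n K : ℕ) (j : Fin n) : Matrix (box n K) (box n K) ℂ := fun c a =>
  if (a : Idx n) = Function.update (c : Idx n) j ((c : Idx n) j + 1) then
    (Real.sqrt ((a : Idx n) j) : ℂ) else 0

/-- The entropy production of the attenuator semigroup at `U diag(lam) Uᴴ`. -/
noncomputable def rate (U : Matrix (box n K) (box n K) ℂ) (lam : box n K → ℝ) : ℝ :=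
  ∑ j, ∑ i, ∑ k, ‖(Uᴴ * annih n K j * U) k i‖ ^ 2 * (lam i * (Real.log (lam i) - Real.log (lam k)))

/-- The infinitesimal inequality: the entropy production of a faithful state on the truncated space
is at least that of the thermal state of the same entropy. -/
def RateBound (n : ℕ) : Prop :=
  ∀ (K : ℕ) (U : Matrix (box n K) (box n K) ℂ), U * Uᴴ = 1 → Uᴴ * U = 1 →
    ∀ lam : box n K → ℝ, (∀ i, 0 < lam i) → ∑ i, lam i = 1 →
      ∀ N : ℝ, 0 < N → ∑ i, Real.negMulLog (lam i) = n * g N →
        -(n * (N * Real.log (1 + 1 / N))) ≤ rate U lam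

end Vale.Agent.P369.Fock
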