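import Mathlib
import Vale.Agent.P369.Fock.Box

/-!
# P369: the attenuator on the truncated space
-/

namespace Vale.Agent.P369.Fock

open Matrix VAgent.P358
open scoped ComplexOrder

variable {n K : ℕ}

/-- The Kraus coefficient of the attenuator. -/
noncomputable def coef (η : ℝ) (c d : Idx n) : ℝ :=
  ∏ i, Real.sqrt (((c i + d i).choose (d i) : ℝ) * η ^ c i * (1 - η) ^ d i)

/-- The matrix with entries extended by zero outside the box. -/
noncomputable def ext (M : Matrix (box n K) (box n K) ℂ) (a b : Idx n) : ℂ :=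
  if h : a ∈ box n K ∧ b ∈ box n K then M ⟨a, h.1⟩ ⟨b, h.2⟩ else 0

/-- The Kraus operator removing `d` photons. -/
noncomputable def kraus (η : ℝ) (d : Idx n) : Matrix (box n K) (box n K) ℂ := fun c a =>
  if (a : Idx n) = (c : Idx n) + d then (coef η c d : ℂ) else 0

/-- The attenuator. -/
noncomputable def att (η : ℝ) (M : Matrix (box n K) (box n K) ℂ) : Matrix (box n K) (box n K) ℂ :=
  ∑ d ∈ box n K, kraus η d * M * (kraus η d)ᴴ

theorem sum_kraus_row (η : ℝ) (d : Idx n) (c : box n K) (f : box n K → ℂ) (F : Idx n → ℂ)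
    (hF : ∀ a : box n K, F a = f a) (hF' : ∀ a, a ∉ box n K → F a = 0) :
    ∑ a, kraus η d c a * f a = (coef η c d : ℂ) * F ((c : Idx n) + d) := by
  by_cases h : (c : Idx n) + d ∈ box n K
  · rw [Finset.sum_eq_single ⟨_, h⟩]
    · rw [kraus, if_pos rfl, hF ⟨_, h⟩]
    · intro a _ ha
      rw [kraus, if_neg (fun e => ha (Subtype.ext e)), zero_mul]
    · intro h'
      exact absurd (Finset.mem_univ _) h'
  · rw [hF' _ h, mul_zero]
    exact Finset.sum_eq_zero fun a _ => by
      rw [kraus, if_neg (fun e : (a : Idx n) = (c : Idx n) + d => h (e ▸ a.2)), zero_mul]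

theorem kraus_mul_mul_apply (η : ℝ) (d : Idx n) (M : Matrix (box n K) (box n K) ℂ)
    (c c' : box n K) :
    ((kraus η d : Matrix (box n K) (box n K) ℂ) * M
        * (kraus η d : Matrix (box n K) (box n K) ℂ)ᴴ) c c'
      = ((coef η c d * coef η c' d : ℝ) : ℂ) * ext M ((c : Idx n) + d) ((c' : Idx n) + d) := by
  have h1 : ∀ b, ((kraus η d : Matrix (box n K) (box n K) ℂ) * M) c b = (coef η c d : ℂ) * ext M ((c : Idx n) + d) b := fun b => by
    rw [Matrix.mul_apply]
    exact sum_kraus_row η d c (fun a => M a b) (fun a => ext M a b)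
      (fun a => by simp [ext]) fun a ha => by simp [ext, ha]
  rw [Matrix.mul_apply]
  simp only [h1, Matrix.conjTranspose_apply]
  have h2 : ∀ b, star (kraus η d c' b) = kraus η d c' b := fun b => by
    unfold kraus
    split_ifs <;> simp [RCLike.star_def]
  simp only [h2, mul_comm _ (kraus η d c' _)]
  rw [sum_kraus_row η d c' (fun b => (coef η c d : ℂ) * ext M ((c : Idx n) + d) b)
    (fun b => (coef η c d : ℂ) * ext M ((c : Idx n) + d) b) (fun b => rfl)
    fun b hb => by simp [ext, hb]]
  push_cast
  ring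

theorem att_apply (η : ℝ) (M : Matrix (box n K) (box n K) ℂ) (c c' : box n K) :
    att η M c c' = ∑ d ∈ box n K,
      ((coef η c d * coef η c' d : ℝ) : ℂ) * ext M ((c : Idx n) + d) ((c' : Idx n) + d) := by
  simp only [att, Matrix.sum_apply, kraus_mul_mul_apply]

theorem att_posSemidef (η : ℝ) {M : Matrix (box n K) (box n K) ℂ} (hM : M.PosSemidef) :
    (att η M).PosSemidef :=
  Matrix.posSemidef_sum _ fun d _ => hM.mul_mul_conjTranspose_same (kraus η d)

theorem coef_nonneg (η : ℝ) (c d : Idx n) : 0 ≤ coef η c d :=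
  Finset.prod_nonneg fun _ _ => Real.sqrt_nonneg _

theorem coef_sq {η : ℝ} (h0 : 0 ≤ η) (h1 : η ≤ 1) (c d : Idx n) :
    coef η c d ^ 2 = ∏ i, (((c i + d i).choose (d i) : ℝ) * η ^ c i * (1 - η) ^ d i) := by
  have : (0 : ℝ) ≤ 1 - η := sub_nonneg.2 h1
  rw [coef, ← Finset.prod_pow]
  exact Finset.prod_congr rfl fun i _ => Real.sq_sqrt (by positivity)

theorem photons_add (a b : Idx n) : photons (a + b) = photons a + photons b := by
  simp [photons, Finset.sum_add_distrib]

/-- The binomial theorem for the Kraus coefficients. -/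
theorem sum_coef_sq {η : ℝ} (h0 : 0 ≤ η) (h1 : η ≤ 1) (a : Idx n) :
    ∑ d ∈ Fintype.piFinset (fun i => Finset.range (a i + 1)), coef η (a - d) d ^ 2 = 1 := by
  simp only [coef_sq h0 h1, Pi.sub_apply]
  rw [← Finset.prod_univ_sum (fun i => Finset.range (a i + 1))
    (fun i k => ((a i - k + k).choose k : ℝ) * η ^ (a i - k) * (1 - η) ^ k)]
  refine Finset.prod_eq_one fun i _ => ?_
  have h := (add_pow (1 - η) η (a i)).symm
  rw [show 1 - η + η = 1 by ring, one_pow] at h
  refine (Finset.sum_congr rfl fun k hk => ?_).trans h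
  rw [Nat.sub_add_cancel (Nat.lt_succ_iff.1 (Finset.mem_range.1 hk))]
  ring

theorem coef_zero_pos {η : ℝ} (h0 : 0 < η) (c : Idx n) : 0 < coef η c 0 :=
  Finset.prod_pos fun i _ => Real.sqrt_pos.2 (by simp; positivity)

theorem att_posDef {η : ℝ} (h0 : 0 < η) {M : Matrix (box n K) (box n K) ℂ} (hM : M.PosDef) :
    (att η M).PosDef := by
  classical
  have hz : (0 : Idx n) ∈ box n K := mem_box.2 (by simp [photons])
  rw [att, ← Finset.add_sum_erase _ _ hz]
  refine Matrix.PosDef.add_posSemidef ?_
    (Matrix.posSemidef_sum _ fun d _ => hM.posSemidef.mul_mul_conjTranspose_same (kraus η d))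
  have e : (kraus η (0 : Idx n) : Matrix (box n K) (box n K) ℂ)
      = Matrix.diagonal fun c : box n K => (coef η (c : Idx n) 0 : ℂ) := by
    funext c a
    by_cases h : c = a
    · subst h; simp [kraus]
    · rw [Matrix.diagonal_apply_ne _ h, kraus, if_neg fun e => h (Subtype.ext (by simpa using e.symm))]
  refine hM.mul_mul_conjTranspose_same ?_
  rw [e]
  refine Matrix.vecMul_injective_iff_isUnit.2 ((Matrix.isUnit_diagonal).2 ?_)
  exact Pi.isUnit_iff.2 fun c => isUnit_iff_ne_zero.2 (Complex.ofReal_ne_zero.2 (coef_zero_pos h0 _).ne')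

/-- The generator of the attenuator semigroup. -/
noncomputable def lind (M : Matrix (box n K) (box n K) ℂ) : Matrix (box n K) (box n K) ℂ :=
  ∑ j, (annih n K j * M * (annih n K j)ᴴ
    - (2⁻¹ : ℂ) • ((annih n K j)ᴴ * annih n K j * M + M * ((annih n K j)ᴴ * annih n K j)))

theorem annih_conj_mul (j : Fin n) (a b : box n K) :
    ((annih n K j)ᴴ * annih n K j) a b = if a = b then (((a : Idx n) j : ℕ) : ℂ) else 0 := by
  rw [Matrix.mul_apply]
  simp only [Matrix.conjTranspose_apply]
  by_cases h : (a : Idx n) j = 0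
  · rw [Finset.sum_eq_zero fun c _ => ?_]
    · split_ifs <;> simp [h]
    · have : annih n K j c a = 0 := by
        rw [annih, if_neg]
        intro e
        rw [e, Function.update_self] at h
        exact absurd h (Nat.succ_ne_zero _)
      simp [this]
  · have hp : photons (Function.update (a : Idx n) j ((a : Idx n) j - 1)) ≤ photons (a : Idx n) :=
      Finset.sum_le_sum fun i _ => by
        rcases eq_or_ne i j with rfl | hi
        · simp
        · simp [hi]
    obtain ⟨c, ec⟩ : ∃ c : box n K, (c : Idx n) = Function.update (a : Idx n) j ((a : Idx n) j - 1) :=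
      ⟨⟨_, mem_box.2 (hp.trans (mem_box.1 a.2))⟩, rfl⟩
    have ea : (a : Idx n) = Function.update (c : Idx n) j ((c : Idx n) j + 1) := by
      rw [ec, Function.update_idem, Function.update_self, Nat.sub_add_cancel (Nat.pos_of_ne_zero h),
        Function.update_eq_self]
    rw [Finset.sum_eq_single c]
    · rw [show annih n K j c a = (Real.sqrt ((a : Idx n) j) : ℂ) by rw [annih, if_pos ea]]
      by_cases hab : a = b
      · subst hab
        rw [if_pos rfl, annih, if_pos ea, RCLike.star_def, Complex.conj_ofReal, ← Complex.ofReal_mul,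
          Real.mul_self_sqrt (Nat.cast_nonneg _), Complex.ofReal_natCast]
      · rw [if_neg hab, annih, if_neg fun e => hab (Subtype.ext (ea.trans e.symm)), mul_zero]
    · intro x _ hx
      have : annih n K j x a = 0 := by
        rw [annih, if_neg]
        intro e
        refine hx (Subtype.ext ?_)
        rw [ec, e, Function.update_idem, Function.update_self, Nat.add_sub_cancel,
          Function.update_eq_self]
      simp [this]
    · intro h'; exact absurd (Finset.mem_univ _) h'

theorem annih_mul_mul_apply (j : Fin n) (M : Matrix (box n K) (box n K) ℂ) (c c' : box n K) :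
    (annih n K j * M * (annih n K j)ᴴ) c c'
      = ((Real.sqrt ((c : Idx n) j + 1) * Real.sqrt ((c' : Idx n) j + 1) : ℝ) : ℂ)
        * ext M (Function.update (c : Idx n) j ((c : Idx n) j + 1))
            (Function.update (c' : Idx n) j ((c' : Idx n) j + 1)) := by
  have key : ∀ (x : box n K) (f : box n K → ℂ) (F : Idx n → ℂ), (∀ a : box n K, F a = f a) →
      (∀ a, a ∉ box n K → F a = 0) → ∑ a, annih n K j x a * f a
        = (Real.sqrt ((x : Idx n) j + 1) : ℂ) * F (Function.update (x : Idx n) j ((x : Idx n) j + 1)) := by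
    intro x f F hF hF'
    by_cases h : Function.update (x : Idx n) j ((x : Idx n) j + 1) ∈ box n K
    · rw [Finset.sum_eq_single ⟨_, h⟩]
      · rw [annih, if_pos rfl, hF ⟨_, h⟩]
        simp
      · intro a _ ha
        rw [annih, if_neg (fun e => ha (Subtype.ext e)), zero_mul]
      · intro h'; exact absurd (Finset.mem_univ _) h'
    · rw [hF' _ h, mul_zero]
      exact Finset.sum_eq_zero fun a _ => by
        rw [annih, if_neg (fun e : (a : Idx n) = Function.update (x : Idx n) j ((x : Idx n) j + 1) => h (e ▸ a.2)), zero_mul]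
  have h1 : ∀ b, (annih n K j * M) c b = (Real.sqrt ((c : Idx n) j + 1) : ℂ)
      * ext M (Function.update (c : Idx n) j ((c : Idx n) j + 1)) b := fun b => by
    rw [Matrix.mul_apply]
    exact key c (fun a => M a b) (fun a => ext M a b) (fun a => by simp [ext]) fun a ha => by
      simp [ext, ha]
  rw [Matrix.mul_apply]
  simp only [h1, Matrix.conjTranspose_apply]
  have h2 : ∀ b, star (annih n K j c' b) = annih n K j c' b := fun b => by
    unfold annih
    split_ifs <;> simp [RCLike.star_def]
  simp only [h2, mul_comm _ (annih n K j c' _)]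
  rw [key c' (fun b => (Real.sqrt ((c : Idx n) j + 1) : ℂ)
      * ext M (Function.update (c : Idx n) j ((c : Idx n) j + 1)) b)
    (fun b => (Real.sqrt ((c : Idx n) j + 1) : ℂ)
      * ext M (Function.update (c : Idx n) j ((c : Idx n) j + 1)) b) (fun b => rfl)
    fun b hb => by simp [ext, hb]]
  push_cast
  ring

end Vale.Agent.P369.Fock
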