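import Mathlib
import Vale.Agent.P369.Fock.Att

/-!
# P369: the entropy along the attenuator semigroup on the truncated space
-/

namespace Vale.Agent.P369.Fock

open Matrix VAgent.P358 Filter
open scoped ComplexOrder Topology

variable {n K : ℕ}

theorem g_zero : g 0 = 0 := by simp [g]

theorem continuous_g : Continuous g :=
  (Real.continuous_mul_log.comp (continuous_id.add continuous_const)).sub Real.continuous_mul_log

theorem hasDerivAt_g {t : ℝ} (ht : 0 < t) : HasDerivAt g (Real.log (1 + 1 / t)) t := by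
  have h1 := (Real.hasDerivAt_mul_log (by linarith : t + 1 ≠ 0)).comp_add_const t 1
  have h2 := Real.hasDerivAt_mul_log ht.ne'
  refine (h1.sub h2).congr_deriv ?_
  rw [show 1 + 1 / t = (t + 1) / t by field_simp, Real.log_div (by linarith) ht.ne']
  ring

theorem g_strictMono : StrictMonoOn g (Set.Ici 0) := by
  refine strictMonoOn_of_deriv_pos (convex_Ici 0) continuous_g.continuousOn fun t ht => ?_
  rw [interior_Ici] at ht
  rw [(hasDerivAt_g ht).deriv]
  exact Real.log_pos (by linarith [one_div_pos.2 (Set.mem_Ioi.1 ht)])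

theorem g_nonneg {t : ℝ} (ht : 0 ≤ t) : 0 ≤ g t :=
  g_zero ▸ g_strictMono.monotoneOn Set.self_mem_Ici ht ht

/-- `t log(1+1/t)` is increasing. -/
theorem mul_log_one_add_inv_le {M N : ℝ} (hM : 0 < M) (h : M ≤ N) :
    M * Real.log (1 + 1 / M) ≤ N * Real.log (1 + 1 / N) := by
  have hN : 0 < N := hM.trans_le h
  have hb := one_add_mul_self_le_rpow_one_add (s := 1 / N) (p := N / M)
    (by linarith [one_div_pos.2 hN]) ((one_le_div hM).2 h)
  rw [show N / M * (1 / N) = 1 / M by field_simp] at hb
  have h2 := Real.log_le_log (by positivity) hb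
  rw [Real.log_rpow (by positivity), div_mul_eq_mul_div, le_div_iff₀ hM] at h2
  linarith

/-- The product of two Kraus coefficients at transmissivity `e^{-t}`. -/
theorem coef_mul_exp {t : ℝ} (ht : 0 ≤ t) (c c' d : Idx n) :
    coef (Real.exp (-t)) c d * coef (Real.exp (-t)) c' d
      = (∏ i, Real.sqrt ((c i + d i).choose (d i)) * Real.sqrt ((c' i + d i).choose (d i)))
        * (Real.exp (-t * ((photons c + photons c' : ℝ) / 2)) * (1 - Real.exp (-t)) ^ photons d) := by
  have hw : 0 ≤ 1 - Real.exp (-t) := sub_nonneg.2 (Real.exp_le_one_iff.2 (by linarith))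
  have he : ∀ m : ℕ, Real.sqrt (Real.exp (-t) ^ m) = Real.exp (-t * ((m : ℝ) / 2)) := fun m => by
    rw [Real.sqrt_eq_rpow, ← Real.exp_nat_mul, ← Real.exp_mul]
    ring_nf
  have e : ∀ (m : Idx n) i, Real.sqrt (((m i + d i).choose (d i) : ℝ) * Real.exp (-t) ^ m i
      * (1 - Real.exp (-t)) ^ d i) = Real.sqrt ((m i + d i).choose (d i))
        * Real.exp (-t * ((m i : ℝ) / 2)) * Real.sqrt ((1 - Real.exp (-t)) ^ d i) := fun m i => by
    rw [Real.sqrt_mul (by positivity), Real.sqrt_mul (by positivity), he]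
  simp only [coef, e, ← Finset.prod_mul_distrib]
  rw [photons, photons, photons, Nat.cast_sum, Nat.cast_sum, ← Finset.sum_add_distrib, Finset.sum_div,
    Finset.mul_sum, Real.exp_sum, ← Finset.prod_pow_eq_pow_sum, ← Finset.prod_mul_distrib,
    ← Finset.prod_mul_distrib]
  refine Finset.prod_congr rfl fun i _ => ?_
  rw [add_div, mul_add, Real.exp_add]
  linear_combination (Real.sqrt ((c i + d i).choose (d i)) * Real.sqrt ((c' i + d i).choose (d i))
    * Real.exp (-t * ((c i : ℝ) / 2)) * Real.exp (-t * ((c' i : ℝ) / 2)))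
    * Real.mul_self_sqrt (pow_nonneg hw (d i))

theorem continuous_att (M : Matrix (box n K) (box n K) ℂ) :
    Continuous fun t : ℝ => att (Real.exp (-t)) M := by
  refine continuous_pi fun c => continuous_pi fun c' => ?_
  simp only [att_apply, coef]
  fun_prop

/-- The generator by matrix elements. -/
theorem lind_apply (M : Matrix (box n K) (box n K) ℂ) (c c' : box n K) :
    lind M c c' = (∑ j : Fin n, ((Real.sqrt ((c : Idx n) j + 1) * Real.sqrt ((c' : Idx n) j + 1) : ℝ) : ℂ)
        * ext M (Function.update (c : Idx n) j ((c : Idx n) j + 1))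
            (Function.update (c' : Idx n) j ((c' : Idx n) j + 1)))
      - ((((photons (c : Idx n) : ℝ) + photons (c' : Idx n)) / 2 : ℝ) : ℂ) * M c c' := by
  simp only [lind, Matrix.sum_apply, Matrix.sub_apply, Matrix.smul_apply, Matrix.add_apply,
    annih_mul_mul_apply, Finset.sum_sub_distrib]
  congr 1
  have h : ∀ j, ((annih n K j)ᴴ * annih n K j * M) c c' = ((c : Idx n) j : ℂ) * M c c'
      ∧ (M * ((annih n K j)ᴴ * annih n K j)) c c' = M c c' * ((c' : Idx n) j : ℂ) := fun j => by
    constructor <;> rw [Matrix.mul_apply] <;> simp [annih_conj_mul]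
  simp only [(h _).1, (h _).2, smul_eq_mul, photons]
  push_cast
  rw [← Finset.mul_sum, Finset.sum_add_distrib, ← Finset.sum_mul, ← Finset.mul_sum]
  ring

/-- The semigroup equation. -/
theorem hasDerivAt_att (M : Matrix (box n K) (box n K) ℂ) {t : ℝ} (ht : 0 < t) (c c' : box n K) :
    HasDerivAt (fun s : ℝ => att (Real.exp (-s)) M c c') (lind (att (Real.exp (-t)) M) c c') t := by
  obtain ⟨P, eP⟩ : ∃ P : Idx n → Idx n → Idx n → ℝ, P = fun a a' d =>
      ∏ i, Real.sqrt ((a i + d i).choose (d i)) * Real.sqrt ((a' i + d i).choose (d i)) := ⟨_, rfl⟩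
  obtain ⟨s0, es0⟩ : ∃ s0 : ℝ, s0 = ((photons (c : Idx n) : ℝ) + photons (c' : Idx n)) / 2 := ⟨_, rfl⟩
  obtain ⟨m, em⟩ : ∃ m : Idx n → ℂ, m = fun d => ext M ((c : Idx n) + d) ((c' : Idx n) + d) := ⟨_, rfl⟩
  obtain ⟨G, eG⟩ : ∃ G : Idx n → ℝ, G = fun d => P c c' d * Real.exp (-t * s0)
      * (1 - Real.exp (-t)) ^ (photons d - 1) * Real.exp (-t) := ⟨_, rfl⟩
  have hd : ∀ d : Idx n, HasDerivAt
      (fun s : ℝ => P c c' d * (Real.exp (-s * s0) * (1 - Real.exp (-s)) ^ photons d))
      (-s0 * (P c c' d * (Real.exp (-t * s0) * (1 - Real.exp (-t)) ^ photons d))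
        + (photons d : ℝ) * G d) t := fun d => by
    have h1 := (((hasDerivAt_id t).neg).mul_const s0).exp
    have h2 := (((hasDerivAt_id t).neg).exp.const_sub 1).pow (photons d)
    have h := (h1.mul h2).const_mul (P c c' d)
    simp only [id, Pi.neg_apply, Pi.mul_apply, Pi.pow_apply] at h
    refine h.congr_deriv ?_
    rw [eG]
    ring
  have hfun : (fun s : ℝ => att (Real.exp (-s)) M c c') =ᶠ[𝓝 t] fun s => ∑ d ∈ box n K,
      ((P c c' d * (Real.exp (-s * s0) * (1 - Real.exp (-s)) ^ photons d) : ℝ) : ℂ) * m d := by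
    filter_upwards [eventually_ge_nhds ht] with s hs
    rw [att_apply]
    exact Finset.sum_congr rfl fun d _ => by rw [coef_mul_exp hs, eP, es0, em]
  refine (HasDerivAt.congr_of_eventuallyEq ?_ hfun)
  refine (HasDerivAt.fun_sum fun d _ => ((hd d).ofReal_comp).mul_const (m d)).congr_deriv ?_
  rw [lind_apply, att_apply, ← es0]
  have hgain : ∀ j : Fin n,
      ((Real.sqrt ((c : Idx n) j + 1) * Real.sqrt ((c' : Idx n) j + 1) : ℝ) : ℂ)
        * ext (att (Real.exp (-t)) M) (Function.update (c : Idx n) j ((c : Idx n) j + 1))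
            (Function.update (c' : Idx n) j ((c' : Idx n) j + 1))
      = ∑ d ∈ box n K, (d j : ℂ) * ((G d : ℂ) * m d) := by
    intro j
    obtain ⟨up, eup⟩ : ∃ up : Idx n → Idx n, up = fun a => Function.update a j (a j + 1) := ⟨_, rfl⟩
    have hupadd : ∀ a d, up a + d = a + up d := fun a d => by
      funext i
      rw [eup]
      rcases eq_or_ne i j with rfl | hi
      · simp [add_assoc, add_comm 1]
      · simp [hi]
    have hph : ∀ a, photons (up a) = photons a + 1 := fun a => by
      rw [eup, photons, photons, Finset.sum_update_of_mem (Finset.mem_univ j),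
        ← Finset.add_sum_erase _ a (Finset.mem_univ j), Finset.sdiff_singleton_eq_erase]
      ring
    have hzero : ∀ a b, a ∉ box n K ∨ b ∉ box n K → ext M a b = 0 := fun a b h => by
      rw [ext, dif_neg (fun hh => h.elim (fun h' => h' hh.1) fun h' => h' hh.2)]
    have hsq : ∀ a d : Idx n, ∀ i, Real.sqrt ((up a i + d i).choose (d i))
        * (if i = j then Real.sqrt (a j + 1) else 1)
        = Real.sqrt ((a i + up d i).choose (up d i)) * (if i = j then Real.sqrt (d j + 1) else 1) := by
      intro a d i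
      rw [eup]
      rcases eq_or_ne i j with rfl | hi
      · simp only [Function.update_self, if_true]
        rw [← Real.sqrt_mul (Nat.cast_nonneg _), ← Real.sqrt_mul (Nat.cast_nonneg _)]
        congr 1
        have := Nat.choose_succ_right_eq (a i + 1 + d i) (d i)
        rw [show a i + 1 + d i - d i = a i + 1 by omega] at this
        rw [show a i + (d i + 1) = a i + 1 + d i by omega]
        exact_mod_cast this.symm
      · simp [hi]
    have hP : ∀ a a' d, Real.sqrt (a j + 1) * Real.sqrt (a' j + 1) * P (up a) (up a') d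
        = (d j + 1 : ℝ) * P a a' (up d) := by
      intro a a' d
      have hpr : ∀ x : ℝ, ∏ i, (if i = j then x else 1) = x := fun x => by simp
      have h1 := Finset.prod_congr (rfl : (Finset.univ : Finset (Fin n)) = _)
        fun i _ => hsq a d i
      have h2 := Finset.prod_congr (rfl : (Finset.univ : Finset (Fin n)) = _)
        fun i _ => hsq a' d i
      rw [Finset.prod_mul_distrib, Finset.prod_mul_distrib, hpr, hpr] at h1 h2
      have hm := congrArg₂ (· * ·) h1 h2
      simp only [eP, Finset.prod_mul_distrib]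
      have hsd := Real.mul_self_sqrt (by positivity : (0 : ℝ) ≤ (d j : ℝ) + 1)
      linear_combination hm + (∏ i, Real.sqrt ((a i + up d i).choose (up d i)))
        * (∏ i, Real.sqrt ((a' i + up d i).choose (up d i))) * hsd
    rw [show Function.update (c : Idx n) j ((c : Idx n) j + 1) = up c by rw [eup],
      show Function.update (c' : Idx n) j ((c' : Idx n) j + 1) = up c' by rw [eup]]
    obtain ⟨r, er⟩ : ∃ r : Idx n → ℂ, r = fun d => (d j : ℂ) * ((G d : ℂ) * m d) := ⟨_, rfl⟩
    have hr0 : ∀ d, d ∉ box n K → r d = 0 := fun d hd => by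
      have : ext M ((c : Idx n) + d) ((c' : Idx n) + d) = 0 := hzero _ _ (Or.inl fun h =>
        hd (mem_box.2 (le_trans (by rw [photons_add]; omega) (mem_box.1 h))))
      simp [er, em, this]
    have hlhs : ((Real.sqrt ((c : Idx n) j + 1) * Real.sqrt ((c' : Idx n) j + 1) : ℝ) : ℂ)
        * ext (att (Real.exp (-t)) M) (up c) (up c') = ∑ d ∈ box n K, r (up d) := by
      by_cases hb : up (c : Idx n) ∈ box n K ∧ up (c' : Idx n) ∈ box n K
      · rw [ext, dif_pos hb, att_apply, Finset.mul_sum]
        refine Finset.sum_congr rfl fun d _ => ?_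
        rw [coef_mul_exp ht.le, er, em, hupadd, hupadd]
        simp only [← mul_assoc, ← Complex.ofReal_natCast, ← Complex.ofReal_mul]
        congr 2
        have hPP := hP c c' d
        simp only [eP] at hPP
        simp only [eG, eP, hph, Nat.add_sub_cancel, es0]
        rw [show ((up d j : ℕ) : ℝ) = (d j : ℝ) + 1 by simp [eup]]
        rw [show -t * ((((photons (c : Idx n) + 1 : ℕ) : ℝ) + ((photons (c' : Idx n) + 1 : ℕ) : ℝ)) / 2)
          = -t * (((photons (c : Idx n) : ℝ) + photons (c' : Idx n)) / 2) + -t by push_cast; ring,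
          Real.exp_add]
        linear_combination (Real.exp (-t * (((photons (c : Idx n) : ℝ) + photons (c' : Idx n)) / 2))
          * Real.exp (-t) * (1 - Real.exp (-t)) ^ photons d) * hPP
      · rw [ext, dif_neg hb, mul_zero, Finset.sum_eq_zero]
        intro d _
        have : ext M ((c : Idx n) + up d) ((c' : Idx n) + up d) = 0 := by
          refine hzero _ _ ?_
          rw [← hupadd, ← hupadd, ← not_and_or]
          intro hh
          exact hb ⟨mem_box.2 (le_trans (by rw [photons_add]; omega) (mem_box.1 hh.1)),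
            mem_box.2 (le_trans (by rw [photons_add]; omega) (mem_box.1 hh.2))⟩
        simp [er, em, this]
    rw [hlhs, show (∑ d ∈ box n K, (d j : ℂ) * ((G d : ℂ) * m d)) = ∑ d ∈ box n K, r d by rw [er]]
    have hinj : Set.InjOn up (box n K : Set (Idx n)) := fun a _ b _ h => by
      funext i
      have := congrFun h i
      rw [eup] at this
      rcases eq_or_ne i j with rfl | hi
      · simpa using this
      · simpa [hi] using this
    rw [← Finset.sum_image hinj]
    refine Finset.sum_congr_of_eq_on_inter (fun d _ hd' => hr0 d hd') (fun d hd hd' => ?_) fun _ _ _ => rfl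
    rcases Nat.eq_zero_or_pos (d j) with h0 | h0
    · simp [er, h0]
    · refine absurd (Finset.mem_image.2 ⟨Function.update d j (d j - 1), ?_, ?_⟩) hd'
      · refine mem_box.2 (le_trans ?_ (mem_box.1 hd))
        refine Finset.sum_le_sum fun i _ => ?_
        rcases eq_or_ne i j with rfl | hi
        · simp
        · simp [hi]
      · rw [eup]
        simp only [Function.update_self, Function.update_idem, Nat.sub_add_cancel h0,
          Function.update_eq_self]
  simp only [hgain]
  rw [Finset.sum_comm, Finset.mul_sum, ← Finset.sum_sub_distrib]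
  refine Finset.sum_congr rfl fun d _ => ?_
  rw [coef_mul_exp ht.le, ← Finset.sum_mul, ← Nat.cast_sum]
  simp only [eP, es0, em, photons]
  push_cast
  ring

theorem trace_lind (M : Matrix (box n K) (box n K) ℂ) : (lind M).trace = 0 := by
  rw [lind, Matrix.trace_sum]
  refine Finset.sum_eq_zero fun j _ => ?_
  rw [Matrix.trace_sub, Matrix.trace_smul, Matrix.trace_add, Matrix.trace_mul_cycle,
    Matrix.trace_mul_comm M]
  simp only [smul_eq_mul]
  ring

theorem trace_att {η : ℝ} (h0 : 0 ≤ η) (h1 : η ≤ 1) (M : Matrix (box n K) (box n K) ℂ) :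
    (att η M).trace = M.trace := by
  classical
  obtain ⟨f, ef⟩ : ∃ f : Idx n → ℂ, f = fun a => ext M a a := ⟨_, rfl⟩
  have hf0 : ∀ a, a ∉ box n K → f a = 0 := fun a ha => by simp [ef, ext, ha]
  have hfM : ∑ a ∈ box n K, f a = M.trace := by
    rw [← Finset.sum_coe_sort (box n K)]
    exact Finset.sum_congr rfl fun a _ => by simp [ef, ext]
  rw [← hfM]
  simp only [Matrix.trace, Matrix.diag_apply, att_apply]
  rw [Finset.sum_coe_sort (box n K) fun c : Idx n =>
    ∑ d ∈ box n K, ((coef η c d * coef η c d : ℝ) : ℂ) * ext M (c + d) (c + d)]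
  have e : ∀ c d : Idx n, ((coef η c d * coef η c d : ℝ) : ℂ) * ext M (c + d) (c + d)
      = ∑ a ∈ box n K, (if c + d = a then ((coef η c d ^ 2 : ℝ) : ℂ) * f a else 0) := fun c d => by
    rw [Finset.sum_ite_eq]
    split_ifs with h
    · rw [ef, sq]
    · rw [show ext M (c + d) (c + d) = 0 by simpa [ef] using hf0 _ h, mul_zero]
  simp only [e]
  rw [Finset.sum_congr rfl fun c _ => Finset.sum_comm, Finset.sum_comm]
  refine Finset.sum_congr rfl fun a ha => ?_
  rw [Finset.sum_comm]
  have e2 : ∀ d ∈ box n K, (∑ c ∈ box n K, if c + d = a then ((coef η c d ^ 2 : ℝ) : ℂ) * f a else 0)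
      = if d ≤ a then ((coef η (a - d) d ^ 2 : ℝ) : ℂ) * f a else 0 := by
    intro d _
    split_ifs with hle
    · have heq : a - d + d = a := tsub_add_cancel_of_le hle
      rw [Finset.sum_eq_single (a - d)]
      · rw [if_pos heq]
      · intro c _ hc
        rw [if_neg fun h => hc (by rw [← h, add_tsub_cancel_right])]
      · intro h
        refine absurd (mem_box.2 (le_trans ?_ (mem_box.1 ha))) h
        exact Finset.sum_le_sum fun i _ => by simp
    · exact Finset.sum_eq_zero fun c _ => if_neg fun h : c + d = a => hle (h ▸ le_add_self)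
  rw [Finset.sum_congr rfl e2, ← Finset.sum_filter, ← Finset.sum_mul, ← Complex.ofReal_sum,
    show (box n K).filter (fun d => d ≤ a) = Fintype.piFinset (fun i => Finset.range (a i + 1)) from ?_,
    sum_coef_sq h0 h1, Complex.ofReal_one, one_mul]
  ext d
  simp only [Finset.mem_filter, Fintype.mem_piFinset, Finset.mem_range, Nat.lt_succ_iff]
  exact ⟨fun h i => h.2 i, fun h => ⟨mem_box.2 ((Finset.sum_le_sum fun i _ => h i).trans (mem_box.1 ha)), h⟩⟩

/-- The diagonal of the generator in an eigenbasis gives the entropy production. -/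
theorem rate_eq (U : Matrix (box n K) (box n K) ℂ) (hU' : Uᴴ * U = 1) (hU : U * Uᴴ = 1)
    (lam : box n K → ℝ) :
    ∑ i, (-Real.log (lam i) - 1)
        * ((Uᴴ * lind (U * Matrix.diagonal (fun k => (lam k : ℂ)) * Uᴴ) * U) i i).re
      = rate U lam := by
  obtain ⟨D, eD⟩ : ∃ D : Matrix (box n K) (box n K) ℂ, D = Matrix.diagonal fun k => (lam k : ℂ) :=
    ⟨_, rfl⟩
  rw [← eD]
  obtain ⟨T, eT⟩ : ∃ T, T = Uᴴ * lind (U * D * Uᴴ) * U := ⟨_, rfl⟩
  rw [← eT]
  have htr : T.trace = 0 := by
    rw [eT, Matrix.trace_mul_cycle, hU, Matrix.one_mul, trace_lind]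
  have hsum : ∑ i, (T i i).re = 0 := by
    rw [← Complex.re_sum]
    exact congrArg Complex.re htr
  obtain ⟨A, eA⟩ : ∃ A : Fin n → Matrix (box n K) (box n K) ℂ,
      A = fun j => Uᴴ * annih n K j * U := ⟨_, rfl⟩
  have hT : T = ∑ j, (A j * D * (A j)ᴴ - (2⁻¹ : ℂ) • ((A j)ᴴ * A j * D + D * ((A j)ᴴ * A j))) := by
    rw [eT, lind, Finset.mul_sum, Finset.sum_mul]
    refine Finset.sum_congr rfl fun j _ => ?_
    rw [eA]
    simp only [Matrix.mul_sub, Matrix.sub_mul, Matrix.mul_smul, Matrix.smul_mul, Matrix.mul_add,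
      Matrix.add_mul, Matrix.conjTranspose_mul, Matrix.conjTranspose_conjTranspose, Matrix.mul_assoc,
      hU', Matrix.mul_one]
    simp only [← Matrix.mul_assoc U Uᴴ, hU, Matrix.one_mul, ← Matrix.mul_assoc Uᴴ U, hU']
  have hTi : ∀ i, (T i i).re
      = ∑ j, ∑ k, (lam k * ‖A j i k‖ ^ 2 - lam i * ‖A j k i‖ ^ 2) := by
    intro i
    rw [hT, Matrix.sum_apply, Complex.re_sum]
    refine Finset.sum_congr rfl fun j _ => ?_
    have h1 : ((A j * D * (A j)ᴴ) i i) = ((∑ k, lam k * ‖A j i k‖ ^ 2 : ℝ) : ℂ) := by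
      rw [eD, Matrix.mul_apply, Complex.ofReal_sum]
      refine Finset.sum_congr rfl fun k _ => ?_
      rw [Matrix.mul_diagonal, Matrix.conjTranspose_apply, RCLike.star_def, mul_right_comm,
        Complex.mul_conj, Complex.normSq_eq_norm_sq, mul_comm (lam k), Complex.ofReal_mul]
    have h2 : ((A j)ᴴ * A j) i i = ((∑ k, ‖A j k i‖ ^ 2 : ℝ) : ℂ) := by
      rw [Matrix.mul_apply, Complex.ofReal_sum]
      refine Finset.sum_congr rfl fun k _ => ?_
      rw [Matrix.conjTranspose_apply, RCLike.star_def, ← Complex.normSq_eq_conj_mul_self,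
        Complex.normSq_eq_norm_sq]
    rw [Matrix.sub_apply, Matrix.smul_apply, Matrix.add_apply, h1, eD, Matrix.mul_diagonal,
      Matrix.diagonal_mul, h2, smul_eq_mul, Finset.sum_sub_distrib, ← Finset.mul_sum]
    norm_num [Complex.sub_re, Complex.mul_re, Complex.mul_im, ← Complex.ofReal_pow]
    ring
  rw [show (∑ i, (-Real.log (lam i) - 1) * (T i i).re)
      = ∑ i, -Real.log (lam i) * (T i i).re by
    simp only [sub_mul, one_mul, Finset.sum_sub_distrib, hsum, sub_zero]]
  simp only [hTi, rate, eA, Finset.mul_sum]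
  rw [Finset.sum_comm]
  refine Finset.sum_congr rfl fun j _ => ?_
  simp only [mul_sub, Finset.sum_sub_distrib]
  rw [Finset.sum_comm (f := fun i k => -Real.log (lam i) * (lam k * _))]
  simp only [← Finset.sum_sub_distrib]
  exact Finset.sum_congr rfl fun i _ => Finset.sum_congr rfl fun k _ => by ring

/-- The entropy bound along the semigroup for faithful states. -/
theorem flow_bound (hR : RateBound n) {M : Matrix (box n K) (box n K) ℂ} (hM : M.PosDef)
    (htr : M.trace = 1) {N : ℝ} (hN : 0 < N) (hS : n * g N ≤ nent (att 1 M)) {T : ℝ} (hT : 0 ≤ T) :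
    n * g (N * Real.exp (-T)) ≤ nent (att (Real.exp (-T)) M) := by
  obtain ⟨S, eS⟩ : ∃ S : ℝ → ℝ, S = fun t => nent (att (Real.exp (-t)) M) := ⟨_, rfl⟩
  have hcS : Continuous S := eS ▸ continuous_nent _ (continuous_att M)
    fun t => att_posSemidef _ hM.posSemidef
  have key : ∀ ε : ℝ, 0 < ε → n * g (N * Real.exp (-((1 + ε) * T))) ≤ S T := by
    intro ε hε
    obtain ⟨N', eN'⟩ : ∃ N' : ℝ → ℝ, N' = fun t => N * Real.exp (-((1 + ε) * t)) := ⟨_, rfl⟩
    obtain ⟨ψ, eψ⟩ : ∃ ψ : ℝ → ℝ, ψ = fun t => S t - n * g (N' t) := ⟨_, rfl⟩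
    have hψc : Continuous ψ := by
      rw [eψ, eN']
      exact hcS.sub (continuous_const.mul (continuous_g.comp (by fun_prop)))
    obtain ⟨b, hb, hmin⟩ := isCompact_Icc.exists_isMinOn (Set.nonempty_Icc.2 hT) hψc.continuousOn
    suffices 0 ≤ ψ b by
      have h := this.trans (hmin (Set.right_mem_Icc.2 hT))
      simp only [eψ, eN'] at h
      linarith
    by_contra hneg
    push Not at hneg
    have hb0 : 0 < b := by
      rcases hb.1.eq_or_lt with h | h
      · subst h
        simp only [eψ, eN', eS, mul_zero, neg_zero, Real.exp_zero, mul_one] at hneg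
        linarith
      · exact h
    have hN' : 0 < N' b := by rw [eN']; positivity
    have hA : (att (Real.exp (-b)) M).PosDef := att_posDef (Real.exp_pos _) hM
    obtain ⟨U, hU, hU', hdec⟩ := spectral_decomp hA.1
    obtain ⟨lam, elam⟩ : ∃ lam, lam = hA.1.eigenvalues := ⟨_, rfl⟩
    rw [← elam] at hdec
    have hlam : ∀ i, 0 < lam i := fun i => elam ▸ hA.eigenvalues_pos i
    have hlam1 : ∑ i, lam i = 1 := by
      have h := hA.1.trace_eq_sum_eigenvalues
      rw [trace_att (Real.exp_pos _).le (Real.exp_le_one_iff.2 (by linarith)), htr, ← elam] at h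
      simpa using (congrArg Complex.re h).symm
    have hSb : S b = ∑ i, Real.negMulLog (lam i) := by
      rw [eS]; simp only; rw [hdec, nent_eq_of_diag U hU]
    have hrate : -(n * (N' b * Real.log (1 + 1 / N' b))) ≤ rate U lam := by
      have hneg' : ∑ i, Real.negMulLog (lam i) < n * g (N' b) := by
        simp only [eψ] at hneg
        linarith
      have hl1 : ∀ i, lam i ≤ 1 := fun i =>
        hlam1 ▸ Finset.single_le_sum (fun k _ => (hlam k).le) (Finset.mem_univ i)
      have hnn : 0 ≤ n * (N' b * Real.log (1 + 1 / N' b)) :=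
        mul_nonneg (Nat.cast_nonneg _) (mul_nonneg hN'.le (Real.log_nonneg (by linarith [one_div_pos.2 hN'])))
      rcases (Finset.sum_nonneg fun i _ => Real.negMulLog_nonneg (hlam i).le (hl1 i) :
          0 ≤ ∑ i, Real.negMulLog (lam i)).eq_or_lt with hz | hz
      · have hl : ∀ i, Real.log (lam i) = 0 := fun i => by
          have := (Finset.sum_eq_zero_iff_of_nonneg fun k _ =>
            Real.negMulLog_nonneg (hlam k).le (hl1 k)).1 hz.symm i (Finset.mem_univ i)
          simpa [Real.negMulLog, (hlam i).ne'] using this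
        rw [show rate U lam = 0 by simp [rate, hl]]
        linarith
      · have hn : (0 : ℝ) < n := by
          rcases (Nat.cast_nonneg n : (0 : ℝ) ≤ n).eq_or_lt with h | h
          · rw [← h] at hneg'; linarith
          · exact h
        obtain ⟨x, hx, hgx⟩ := intermediate_value_Ioo hN'.le continuous_g.continuousOn
          (show (∑ i, Real.negMulLog (lam i)) / n ∈ Set.Ioo (g 0) (g (N' b)) from
            ⟨by rw [g_zero]; positivity, by rw [div_lt_iff₀ hn]; linarith⟩)
        refine le_trans ?_ (hR K U hU hU' lam hlam hlam1 x hx.1 (by rw [hgx]; field_simp))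
        have := mul_le_mul_of_nonneg_left (mul_log_one_add_inv_le hx.1 hx.2.le) hn.le
        linarith
    obtain ⟨q, eq⟩ : ∃ q : box n K → ℝ → ℝ,
        q = fun i t => ((Uᴴ * att (Real.exp (-t)) M * U) i i).re := ⟨_, rfl⟩
    have hdiag : Uᴴ * att (Real.exp (-b)) M * U = Matrix.diagonal fun k => (lam k : ℂ) := by
      conv_lhs => rw [hdec]
      simp only [Matrix.mul_assoc, hU', Matrix.mul_one]
      rw [← Matrix.mul_assoc, hU', Matrix.one_mul]
    have hq : ∀ i, HasDerivAt (q i) ((Uᴴ * lind (att (Real.exp (-b)) M) * U) i i).re b := by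
      intro i
      rw [eq]
      refine Complex.reCLM.hasFDerivAt.comp_hasDerivAt b ?_
      simp only [Matrix.mul_apply, Finset.sum_mul]
      exact HasDerivAt.fun_sum fun x _ => HasDerivAt.fun_sum fun y _ =>
        ((hasDerivAt_att M hb0 y x).const_mul _).mul_const _
    have hqb : ∀ i, q i b = lam i := fun i => by simp [eq, hdiag]
    obtain ⟨φ, eφ⟩ : ∃ φ : ℝ → ℝ, φ = fun t => ∑ i, Real.negMulLog (q i t) := ⟨_, rfl⟩
    have hφb : φ b = S b := by simp [eφ, hqb, hSb]
    have hφle : ∀ t, S t ≤ φ t := fun t => by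
      have hconj : nent (Uᴴ * att (Real.exp (-t)) M * U) = nent (att (Real.exp (-t)) M) := by
        obtain ⟨W, hW, -, hdW⟩ := spectral_decomp (att_posSemidef (Real.exp (-t)) hM.posSemidef).1
        conv_lhs => rw [hdW]
        rw [show Uᴴ * (W * Matrix.diagonal (fun i => (((att_posSemidef (Real.exp (-t)) hM.posSemidef).1.eigenvalues i : ℝ) : ℂ)) * Wᴴ) * U
          = Uᴴ * W * Matrix.diagonal (fun i => (((att_posSemidef (Real.exp (-t)) hM.posSemidef).1.eigenvalues i : ℝ) : ℂ)) * (Uᴴ * W)ᴴ by
            simp [Matrix.conjTranspose_mul, Matrix.mul_assoc]]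
        rw [nent_eq_of_diag _ (by
          rw [Matrix.conjTranspose_mul, Matrix.conjTranspose_conjTranspose, Matrix.mul_assoc,
            ← Matrix.mul_assoc W, hW, Matrix.one_mul, hU']), nent, dif_pos]
      rw [eS, eφ, eq]
      simp only
      rw [← hconj]
      exact nent_le_sum_diag ((att_posSemidef _ hM.posSemidef).conjTranspose_mul_mul_same U)
    have hφd : HasDerivAt φ (rate U lam) b := by
      rw [eφ]
      refine (HasDerivAt.fun_sum fun i _ =>
        (Real.hasDerivAt_negMulLog ((hqb i).symm ▸ (hlam i).ne')).comp b (hq i)).congr_deriv ?_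
      rw [← rate_eq U hU' hU lam, ← hdec]
      exact Finset.sum_congr rfl fun i _ => by rw [hqb]
    have hG : HasDerivAt (fun t => n * g (N' t))
        (-((1 + ε) * (n * (N' b * Real.log (1 + 1 / N' b))))) b := by
      have h1 : HasDerivAt N' (-(1 + ε) * N' b) b := by
        rw [eN']
        refine ((((hasDerivAt_id b).const_mul (1 + ε)).neg).exp.const_mul N).congr_deriv ?_
        simp only [id, Pi.neg_apply, mul_one]
        ring
      refine (((hasDerivAt_g hN').comp b h1).const_mul (n : ℝ)).congr_deriv ?_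
      ring
    have hle : rate U lam ≤ -((1 + ε) * (n * (N' b * Real.log (1 + 1 / N' b)))) := by
      have hd := hφd.sub hG
      have hslope := (hasDerivWithinAt_iff_tendsto_slope' (Set.notMem_Iio.2 (le_refl b))).1
        (hd.hasDerivWithinAt (s := Set.Iio b))
      refine sub_nonpos.1 (le_of_tendsto hslope ?_)
      filter_upwards [Ico_mem_nhdsLT hb0] with t ht
      have hm : ψ b ≤ ψ t := hmin ⟨ht.1, ht.2.le.trans hb.2⟩
      simp only [eψ] at hm
      rw [slope_def_field]
      refine div_nonpos_of_nonneg_of_nonpos ?_ (sub_nonpos.2 ht.2.le)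
      simp only [Pi.sub_apply, hφb]
      linarith [hφle t]
    have hn0 : 0 < n * (N' b * Real.log (1 + 1 / N' b)) := by
      have hn : 0 < (n : ℝ) := by
        rcases (Nat.cast_nonneg n : (0 : ℝ) ≤ n).eq_or_lt with h | h
        · simp only [eψ, ← h, zero_mul, sub_zero, hSb] at hneg
          linarith [Finset.sum_nonneg fun i (_ : i ∈ Finset.univ) => Real.negMulLog_nonneg (hlam i).le
            (hlam1 ▸ Finset.single_le_sum (fun k _ => (hlam k).le) (Finset.mem_univ i))]
        · exact h
      exact mul_pos hn (mul_pos hN' (Real.log_pos (by linarith [one_div_pos.2 hN'])))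
    nlinarith [mul_pos hε hn0]
  have hlim : Tendsto (fun ε : ℝ => (n : ℝ) * g (N * Real.exp (-((1 + ε) * T)))) (𝓝[>] 0)
      (𝓝 (n * g (N * Real.exp (-T)))) := by
    have hc : Continuous fun ε : ℝ => (n : ℝ) * g (N * Real.exp (-((1 + ε) * T))) :=
      continuous_const.mul (continuous_g.comp (by fun_prop))
    simpa using (hc.tendsto 0).mono_left nhdsWithin_le_nhds
  have := le_of_tendsto hlim (eventually_nhdsWithin_of_forall fun ε hε => key ε hε)
  rwa [eS] at this

end Vale.Agent.P369.Fock
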