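import Mathlib
import Vale.Agent.P369.Fock.Defs

/-!
# P369: elementary properties of states on the Fock space
-/

namespace Vale.Agent.P369.Fock

open Filter
open scoped ENNReal InnerProductSpace CStarAlgebra Topology

variable {n : ℕ}

theorem norm_ket (a : Idx n) : ‖ket a‖ = 1 := by
  simp [ket, lp.norm_single]

theorem inner_ket (a : Idx n) (x : Space n) : ⟪ket a, x⟫_ℂ = x a := by
  rw [ket, lp.inner_single_left]
  simp

theorem ket_orthonormal : Orthonormal ℂ (ket : Idx n → Space n) := by
  refine orthonormal_iff_ite.2 fun a b => ?_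
  rw [inner_ket, ket, lp.single_apply]
  simp [Pi.single_apply]

/-- The number basis as a Hilbert basis. -/
noncomputable def numBasis (n : ℕ) : HilbertBasis (Idx n) ℂ (Space n) :=
  HilbertBasis.ofRepr (LinearIsometryEquiv.refl ℂ (Space n))

theorem numBasis_apply (a : Idx n) : (numBasis n) a = ket a := by
  rw [← HilbertBasis.repr_symm_single]
  rfl

/-- Parseval in the number basis. -/
theorem hasSum_sq (x : Space n) : HasSum (fun a => ‖x a‖ ^ 2) (‖x‖ ^ 2) := by
  have h := (lp.hasSum_inner x x).mapL Complex.reCLM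
  rw [inner_self_eq_norm_sq_to_K] at h
  convert h using 1
  · funext a
    simp [inner_self_eq_norm_sq_to_K, ← Complex.ofReal_pow]
  · simp [← Complex.ofReal_pow]

theorem diag_nonneg {T : Op n} (hT : T.IsPositive) (a : Idx n) : 0 ≤ (entry T a a).re := by
  have := hT.re_inner_nonneg_right (ket a)
  simpa [entry] using this

/-- A positive operator has a self-adjoint square root. -/
theorem exists_sqrt {T : Op n} (hT : T.IsPositive) : ∃ s : Op n, IsSelfAdjoint s ∧ s * s = T := by
  refine ⟨cfc Real.sqrt T, cfc_predicate _ _, ?_⟩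
  rw [← cfc_mul (R := ℝ) Real.sqrt Real.sqrt T]
  have h : ∀ x ∈ spectrum ℝ T, 0 ≤ x := fun x hx =>
    spectrum_nonneg_of_nonneg ((T.nonneg_iff_isPositive).2 hT) hx
  rw [cfc_congr (g := fun x => x) fun x hx => Real.mul_self_sqrt (h x hx)]
  exact cfc_id' ℝ T hT.isSelfAdjoint

theorem inner_sq {s T : Op n} (hs : IsSelfAdjoint s) (hT : s * s = T) (x y : Space n) :
    ⟪x, T y⟫_ℂ = ⟪s x, s y⟫_ℂ := by
  rw [← hT, mul_apply_eq_comp, ← (ContinuousLinearMap.isSelfAdjoint_iff_isSymmetric.1 hs).apply_clm x (s y)]

theorem entry_self_eq {s T : Op n} (hs : IsSelfAdjoint s) (hT : s * s = T) (a : Idx n) :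
    (entry T a a).re = ‖s (ket a)‖ ^ 2 := by
  rw [entry, inner_sq hs hT, inner_self_eq_norm_sq_to_K]
  simp [← Complex.ofReal_pow]

theorem hasSum_ket (x : Space n) : HasSum (fun a => x a • ket a) x := by
  have := (numBasis n).hasSum_repr x
  simp only [numBasis_apply] at this
  exact this

/-- The restriction to finitely many number states. -/
noncomputable def cutOp (T : Op n) (F : Finset (Idx n)) : Op n :=
  ∑ a ∈ F, (innerSL ℂ (ket a)).smulRight (T (ket a))

theorem cutOp_apply (T : Op n) (F : Finset (Idx n)) (x : Space n) :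
    cutOp T F x = ∑ a ∈ F, x a • T (ket a) := by
  simp [cutOp, inner_ket]

theorem isCompact_cutOp (T : Op n) (F : Finset (Idx n)) : IsCompactOperator (cutOp T F) := by
  classical
  induction F using Finset.induction_on with
  | empty => simpa [cutOp] using isCompactOperator_zero
  | insert a F ha ih =>
    have e : cutOp T (insert a F) = (innerSL ℂ (ket a)).smulRight (T (ket a)) + cutOp T F := by
      simp [cutOp, Finset.sum_insert ha]
    rw [e]
    refine IsCompactOperator.add ?_ ih
    have h := isCompactOperator_of_locallyCompactSpace_rng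
      (ContinuousLinearMap.toSpanSingleton ℂ (T (ket a)))
    exact h.comp_clm (innerSL ℂ (ket a))

/-- An operator with square summable columns is compact. -/
theorem isCompact_of_hs {s : Op n} (hd : Summable fun a => ‖s (ket a)‖ ^ 2) :
    IsCompactOperator s := by
  refine isCompactOperator_of_tendsto (F := fun F => cutOp s F) (l := atTop) ?_
    (Eventually.of_forall fun F => isCompact_cutOp s F)
  rw [tendsto_iff_norm_sub_tendsto_zero]
  have htail : Tendsto (fun F : Finset (Idx n) => Real.sqrt (∑' a : {a // a ∉ F}, ‖s (ket a)‖ ^ 2))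
      atTop (𝓝 0) := by
    have h := (tendsto_tsum_compl_atTop_zero fun a => ‖s (ket a)‖ ^ 2).sqrt
    simpa using h
  refine squeeze_zero (fun F => norm_nonneg _) (fun F => ?_) htail
  refine ContinuousLinearMap.opNorm_le_bound _ (Real.sqrt_nonneg _) fun x => ?_
  rw [sub_apply, norm_sub_rev, cutOp_apply]
  have h : HasSum (fun a => x a • s (ket a)) (s x) := by
    simpa using (hasSum_ket x).mapL s
  have h' : HasSum (fun a : {a // a ∉ F} => x a • s (ket a)) (s x - ∑ a ∈ F, x a • s (ket a)) := by
    have := (F.hasSum_compl_iff (f := fun a => x a • s (ket a))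
      (a := s x - ∑ a ∈ F, x a • s (ket a))).2 (by simpa using h)
    exact this
  refine le_of_tendsto' h'.norm fun G => ?_
  refine (norm_sum_le _ _).trans ?_
  simp only [norm_smul]
  refine (Real.sum_mul_le_sqrt_mul_sqrt G (fun a => ‖x a‖) (fun a => ‖s (ket a)‖)).trans ?_
  rw [mul_comm]
  refine mul_le_mul ?_ ?_ (Real.sqrt_nonneg _) (Real.sqrt_nonneg _)
  · refine Real.sqrt_le_sqrt ?_
    exact (hd.subtype _).sum_le_tsum G fun a _ => sq_nonneg _
  · refine (Real.sqrt_le_sqrt ?_).trans_eq (Real.sqrt_sq (norm_nonneg x))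
    refine le_trans ?_ (hasSum_sq x).tsum_eq.le
    refine le_trans ((hasSum_sq x).summable.subtype (fun a => a ∉ F) |>.sum_le_tsum G fun a _ => sq_nonneg _) ?_
    exact (hasSum_sq x).summable.tsum_subtype_le _ _ fun a => sq_nonneg _

/-- A positive operator with summable diagonal is compact. -/
theorem isCompact_of_summable {T : Op n} (hT : T.IsPositive)
    (hd : Summable fun a => (entry T a a).re) : IsCompactOperator T := by
  obtain ⟨s, hs, hsT⟩ := exists_sqrt hT
  simp only [entry_self_eq hs hsT] at hd
  rw [← hsT]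
  exact (isCompact_of_hs hd).comp_clm s

/-- Every state is diagonalised by a Hilbert basis. -/
theorem exists_eigenbasis {T : Op n} (hT : T.IsPositive)
    (hd : Summable fun a => (entry T a a).re) :
    ∃ (ι : Type) (b : HilbertBasis ι ℂ (Space n)) (p : ι → ℝ),
      (∀ i, 0 ≤ p i) ∧ ∀ i, T (b i) = (p i : ℂ) • b i := by
  classical
  have hc := isCompact_of_summable hT hd
  have hsy : (T : Space n →ₗ[ℂ] Space n).IsSymmetric := hT.isSymmetric
  have hbot := ContinuousLinearMap.orthogonalComplement_iSup_eigenspaces_eq_bot hc hsy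
  have hcl : ∀ μ : ℂ, IsClosed (Module.End.eigenspace (T : Module.End ℂ (Space n)) μ : Set (Space n)) :=
    fun μ => by
      have : (Module.End.eigenspace (T : Module.End ℂ (Space n)) μ : Set (Space n))
          = {x | T x = μ • x} := by
        ext x
        simp
      rw [this]
      exact isClosed_eq T.continuous (continuous_const_smul μ)
  have hcs : ∀ μ : ℂ, CompleteSpace (Module.End.eigenspace (T : Module.End ℂ (Space n)) μ) :=
    fun μ => (hcl μ).completeSpace_coe
  choose w bw hbw using fun μ : ℂ =>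
    exists_hilbertBasis ℂ (Module.End.eigenspace (T : Module.End ℂ (Space n)) μ)
  let v : (Σ μ : ℂ, w μ) → Space n := fun i => ((bw i.1 i.2 : Module.End.eigenspace (T : Module.End ℂ (Space n)) i.1) : Space n)
  have heig : ∀ i, T (v i) = i.1 • v i := fun i =>
    Module.End.mem_eigenspace_iff.1 (bw i.1 i.2).2
  have hv : Orthonormal ℂ v := by
    refine orthonormal_iff_ite.2 ?_
    rintro ⟨μ, x⟩ ⟨ν, y⟩
    by_cases h : μ = ν
    · subst h
      have h1 := orthonormal_iff_ite.1 (bw μ).orthonormal x y
      rw [Submodule.coe_inner] at h1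
      by_cases hxy : x = y
      · subst hxy; simpa [v] using h1
      · have hne : (⟨μ, x⟩ : Σ μ : ℂ, w μ) ≠ ⟨μ, y⟩ := fun e => hxy (by simpa using e)
        rw [if_neg hne]
        simpa [v, hxy] using h1
    · have hne : (⟨μ, x⟩ : Σ μ : ℂ, w μ) ≠ ⟨ν, y⟩ := fun e => h (Sigma.mk.inj_iff.1 e).1
      rw [if_neg hne]
      exact hsy.orthogonalFamily_eigenspaces h (bw μ x) (bw ν y)
  have hsp : (Submodule.span ℂ (Set.range v))ᗮ = ⊥ := by
    rw [eq_bot_iff, ← hbot]
    intro x hx
    rw [Submodule.mem_orthogonal']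
    intro y hy
    refine Submodule.iSup_induction (fun μ => Module.End.eigenspace (T : Module.End ℂ (Space n)) μ)
      (motive := fun y => ⟪x, y⟫_ℂ = 0) hy (fun μ y hy => ?_) (inner_zero_right _)
      fun a b ha hb => by rw [inner_add_right, ha, hb, add_zero]
    have hs := ((bw μ).hasSum_repr ⟨y, hy⟩).mapL
      ((innerSL ℂ x).comp (Module.End.eigenspace (T : Module.End ℂ (Space n)) μ).subtypeL)
    refine hs.unique ((hasSum_zero).congr_fun fun z => ?_)
    simp only [ContinuousLinearMap.comp_apply, Submodule.subtypeL_apply, map_smul, innerSL_apply_apply,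
      smul_eq_mul]
    rw [Submodule.inner_left_of_mem_orthogonal (Submodule.subset_span (Set.mem_range_self (⟨μ, z⟩ : Σ μ : ℂ, w μ))) hx,
      mul_zero]
  let B := HilbertBasis.mkOfOrthogonalEqBot hv hsp
  have hB : ∀ i, B i = v i := fun i => congrFun (HilbertBasis.coe_mkOfOrthogonalEqBot hv hsp) i
  refine ⟨_, B, fun i => i.1.re, fun i => ?_, fun i => ?_⟩
  · have h := hT.re_inner_nonneg_right (v i)
    rw [heig, inner_smul_right, inner_self_eq_norm_sq_to_K, hv.1 i] at h
    simpa using h
  · rw [hB, heig]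
    have h : (starRingEnd ℂ) i.1 = i.1 := hsy.conj_eigenvalue_eq_self
      (Module.End.hasEigenvalue_of_hasEigenvector ⟨(bw i.1 i.2).2, fun e => by
        have := hv.1 i
        simp only [v, e, norm_zero, zero_ne_one] at this⟩)
    rw [Complex.conj_eq_iff_re.1 h]

end Vale.Agent.P369.Fock
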