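import Mathlib
import Vale.Agent.P358.Main.Entropy

/-!
# P369: entropy inequalities for finite positive semidefinite matrices
-/

namespace Vale.Agent.P369.Fock

open Matrix VAgent.P358
open scoped ComplexOrder

variable {m G : Type*} [Fintype m] [DecidableEq m] [Fintype G] [DecidableEq G]

theorem roots_sum_eq {M : Matrix m m ℂ} (hM : M.IsHermitian) :
    (M.charpoly.roots.map fun z => Real.negMulLog z.re).sum = nent M := by
  rw [hM.roots_charpoly_eq_eigenvalues, nent, dif_pos hM, Multiset.map_map]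
  rfl

/-- `W Wᴴ` and `Wᴴ W` have the same entropy. -/
theorem nent_mul_comm (W : Matrix m G ℂ) : nent (W * Wᴴ) = nent (Wᴴ * W) := by
  have h1 : (W * Wᴴ).IsHermitian := Matrix.isHermitian_mul_conjTranspose_self W
  have h2 : (Wᴴ * W).IsHermitian := Matrix.isHermitian_conjTranspose_mul_self W
  have h := congrArg (fun p : Polynomial ℂ => (p.roots.map fun z => Real.negMulLog z.re).sum)
    (Matrix.charpoly_mul_comm' W Wᴴ)
  rw [Polynomial.roots_mul (mul_ne_zero (pow_ne_zero _ Polynomial.X_ne_zero)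
      (Matrix.charpoly_monic _).ne_zero),
    Polynomial.roots_mul (mul_ne_zero (pow_ne_zero _ Polynomial.X_ne_zero)
      (Matrix.charpoly_monic _).ne_zero)] at h
  simp only [Multiset.map_add, Multiset.sum_add, roots_sum_eq h1, roots_sum_eq h2,
    Polynomial.roots_X_pow, Multiset.map_nsmul, Multiset.sum_nsmul, Multiset.map_singleton,
    Multiset.sum_singleton, Complex.zero_re, Real.negMulLog_zero, smul_zero, zero_add] at h
  exact h

/-- Subadditivity over rank-one terms. -/
theorem nent_le_sum_rankOne (p : G → ℝ) (hp : ∀ i, 0 ≤ p i) (v : G → m → ℂ) :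
    nent (fun a b => ∑ i, (p i : ℂ) * v i a * star (v i b))
      ≤ ∑ i, Real.negMulLog (p i * ∑ a, ‖v i a‖ ^ 2) := by
  obtain ⟨W, hW⟩ : ∃ W : Matrix m G ℂ, W = fun a i => (Real.sqrt (p i) : ℂ) * v i a := ⟨_, rfl⟩
  have e : (fun a b => ∑ i, (p i : ℂ) * v i a * star (v i b)) = W * Wᴴ := by
    funext a b
    rw [Matrix.mul_apply]
    refine Finset.sum_congr rfl fun i _ => ?_
    have hs : ((Real.sqrt (p i) : ℝ) : ℂ) * ((Real.sqrt (p i) : ℝ) : ℂ) = (p i : ℂ) := by
      rw [← Complex.ofReal_mul, Real.mul_self_sqrt (hp i)]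
    rw [Matrix.conjTranspose_apply, hW]
    simp only [RCLike.star_def, map_mul, Complex.conj_ofReal]
    rw [← hs]
    ring
  rw [e, nent_mul_comm]
  refine (nent_le_sum_diag (Matrix.posSemidef_conjTranspose_mul_self W)).trans_eq ?_
  refine Finset.sum_congr rfl fun i _ => congrArg _ ?_
  rw [Matrix.mul_apply, Complex.re_sum, Finset.mul_sum]
  refine Finset.sum_congr rfl fun a _ => ?_
  rw [Matrix.conjTranspose_apply, hW, RCLike.star_def, ← Complex.normSq_eq_conj_mul_self,
    Complex.ofReal_re, Complex.normSq_mul, Complex.normSq_ofReal, Real.mul_self_sqrt (hp i),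
    Complex.normSq_eq_norm_sq]

/-- A positive semidefinite matrix as a sum of rank-one terms. -/
theorem eq_sum_eigen {M : Matrix m m ℂ} (hM : M.IsHermitian) :
    ∃ U : Matrix m m ℂ, U * Uᴴ = 1 ∧ Uᴴ * U = 1 ∧
      ∀ a b, M a b = ∑ i, (hM.eigenvalues i : ℂ) * U a i * star (U b i) := by
  obtain ⟨U, hU, hU', h⟩ := spectral_decomp hM
  refine ⟨U, hU, hU', fun a b => ?_⟩
  conv_lhs => rw [h]
  simp only [Matrix.mul_apply, Matrix.diagonal_apply, mul_ite, mul_zero, Finset.sum_ite_eq',
    Finset.mem_univ, if_true, Matrix.conjTranspose_apply]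
  exact Finset.sum_congr rfl fun i _ => by ring

/-- Subadditivity of the entropy of positive semidefinite matrices. -/
theorem nent_add_le {A B : Matrix m m ℂ} (hA : A.PosSemidef) (hB : B.PosSemidef) :
    nent (A + B) ≤ nent A + nent B := by
  obtain ⟨U, -, hU, eU⟩ := eq_sum_eigen hA.1
  obtain ⟨V, -, hV, eV⟩ := eq_sum_eigen hB.1
  have key := nent_le_sum_rankOne (m := m) (G := m ⊕ m)
    (Sum.elim hA.1.eigenvalues hB.1.eigenvalues)
    (by rintro (i | i)
        · exact hA.eigenvalues_nonneg i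
        · exact hB.eigenvalues_nonneg i)
    (Sum.elim (fun i a => U a i) fun i a => V a i)
  have e : A + B = fun a b => ∑ i : m ⊕ m, ((Sum.elim hA.1.eigenvalues hB.1.eigenvalues i : ℝ) : ℂ)
      * Sum.elim (fun i a => U a i) (fun i a => V a i) i a
      * star (Sum.elim (fun i a => U a i) (fun i a => V a i) i b) := by
    funext a b
    rw [Fintype.sum_sum_type, Matrix.add_apply, eU, eV]
    rfl
  rw [e]
  refine key.trans_eq ?_
  have hcol : ∀ W : Matrix m m ℂ, Wᴴ * W = 1 → ∀ i, ∑ a, ‖W a i‖ ^ 2 = 1 := fun W hW i => by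
    have h := congrFun (congrFun hW i) i
    simp only [Matrix.mul_apply, Matrix.conjTranspose_apply, Matrix.one_apply_eq, RCLike.star_def,
      ← Complex.normSq_eq_conj_mul_self] at h
    rw [← Complex.ofReal_sum] at h
    have h' : ∑ a, Complex.normSq (W a i) = 1 := by exact_mod_cast h
    simpa [Complex.normSq_eq_norm_sq] using h'
  simp [Fintype.sum_sum_type, hcol U hU, hcol V hV, nent, hA.1, hB.1]

/-- The entropy of a matrix is at most that of a corner plus the entropy of the remaining diagonal. -/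
theorem nent_pinch {κ μ : Type*} [Fintype κ] [DecidableEq κ] [Fintype μ] [DecidableEq μ]
    {M : Matrix (κ ⊕ μ) (κ ⊕ μ) ℂ} (hM : M.PosSemidef) :
    nent M ≤ nent M.toBlocks₁₁ + ∑ c, Real.negMulLog ((M (Sum.inr c) (Sum.inr c)).re) := by
  have h11 : M.toBlocks₁₁.IsHermitian := hM.1.submatrix _
  obtain ⟨U, hU, hU', hdec⟩ := spectral_decomp h11
  obtain ⟨V, hV⟩ : ∃ V : Matrix (κ ⊕ μ) (κ ⊕ μ) ℂ, V = Matrix.fromBlocks U 0 0 1 := ⟨_, rfl⟩
  have hVV : V * Vᴴ = 1 := by
    rw [hV, Matrix.fromBlocks_conjTranspose, Matrix.fromBlocks_multiply]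
    simp [hU]
  have e : nent (Vᴴ * M * V) = nent M := by
    obtain ⟨W, hW, -, hdecM⟩ := spectral_decomp hM.1
    have hVV' : Vᴴ * V = 1 := mul_eq_one_comm.1 hVV
    have e2 : Vᴴ * M * V
        = (Vᴴ * W) * Matrix.diagonal (fun i => (hM.1.eigenvalues i : ℂ)) * (Vᴴ * W)ᴴ := by
      rw [Matrix.conjTranspose_mul, Matrix.conjTranspose_conjTranspose]
      conv_lhs => rw [hdecM]
      simp only [Matrix.mul_assoc]
    have hu : (Vᴴ * W) * (Vᴴ * W)ᴴ = 1 := by
      rw [Matrix.conjTranspose_mul, Matrix.conjTranspose_conjTranspose, Matrix.mul_assoc,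
        ← Matrix.mul_assoc W, hW, Matrix.one_mul, hVV']
    rw [e2, nent_eq_of_diag _ hu, nent, dif_pos hM.1]
  rw [← e]
  refine (nent_le_sum_diag (hM.conjTranspose_mul_mul_same V)).trans_eq ?_
  have eblk : Vᴴ * M * V = Matrix.fromBlocks (Uᴴ * M.toBlocks₁₁ * U) (Uᴴ * M.toBlocks₁₂)
      (M.toBlocks₂₁ * U) M.toBlocks₂₂ := by
    conv_lhs => rw [hV, ← Matrix.fromBlocks_toBlocks M]
    rw [Matrix.fromBlocks_conjTranspose, Matrix.fromBlocks_multiply, Matrix.fromBlocks_multiply]
    simp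
  have ediag : Uᴴ * M.toBlocks₁₁ * U = Matrix.diagonal fun i => (h11.eigenvalues i : ℂ) := by
    conv_lhs => rw [hdec]
    simp only [Matrix.mul_assoc, hU', Matrix.mul_one]
    rw [← Matrix.mul_assoc, hU', Matrix.one_mul]
  rw [Fintype.sum_sum_type, eblk, nent, dif_pos h11]
  simp [ediag, Matrix.toBlocks₂₂]

/-- The entropy under scaling. -/
theorem nent_smul {M : Matrix m m ℂ} (hM : M.IsHermitian) (c : ℝ) :
    nent ((c : ℂ) • M) = c * nent M + Real.negMulLog c * M.trace.re := by
  obtain ⟨U, hU, -, h⟩ := spectral_decomp hM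
  have e : (c : ℂ) • M
      = U * Matrix.diagonal (fun i => ((c * hM.eigenvalues i : ℝ) : ℂ)) * Uᴴ := by
    conv_lhs => rw [h]
    rw [← Matrix.smul_mul, ← Matrix.mul_smul, ← Matrix.diagonal_smul]
    refine congrArg (fun d => U * Matrix.diagonal d * Uᴴ) (funext fun i => ?_)
    simp
  rw [e, nent_eq_of_diag U hU, nent, dif_pos hM, hM.trace_eq_sum_eigenvalues]
  simp only [Real.negMulLog_mul, Finset.sum_add_distrib, ← Finset.sum_mul, ← Finset.mul_sum,
    Complex.re_sum, Complex.coe_algebraMap, Complex.ofReal_re]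
  ring

end Vale.Agent.P369.Fock
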