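import Mathlib
import Vale.Agent.P369.Fock.Basic
import Vale.Agent.P369.Fock.Fin

/-!
# P369: the entropy of a state is the limit of the entropies of its finite corners
-/

namespace Vale.Agent.P369.Fock

open Filter VAgent.P358
open scoped ENNReal InnerProductSpace CStarAlgebra Topology ComplexOrder

variable {n : ℕ}

/-- The finite corner of an operator. -/
noncomputable def comp (T : Op n) (F : Finset (Idx n)) : Matrix F F ℂ := fun a b => entry T a b

theorem comp_posSemidef {T : Op n} (hT : T.IsPositive) (F : Finset (Idx n)) :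
    (comp T F).PosSemidef := by
  refine Matrix.PosSemidef.of_dotProduct_mulVec_nonneg ?_ fun x => ?_
  · ext a b
    simp only [Matrix.conjTranspose_apply, comp, entry, RCLike.star_def, inner_conj_symm]
    exact hT.isSymmetric _ _
  · have e : star x ⬝ᵥ (comp T F).mulVec x
        = ⟪∑ a : F, x a • ket (a : Idx n), T (∑ b : F, x b • ket (b : Idx n))⟫_ℂ := by
      simp only [map_sum, map_smul, sum_inner, inner_sum, inner_smul_left, inner_smul_right,
        dotProduct, Matrix.mulVec, comp, entry, Finset.mul_sum, Pi.star_apply, RCLike.star_def]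
      rw [Finset.sum_comm]
      exact Finset.sum_congr rfl fun a _ => Finset.sum_congr rfl fun b _ => by ring
    rw [e]
    exact hT.inner_nonneg_right _

section eigen

variable {ι : Type} (b : HilbertBasis ι ℂ (Space n)) {S : Op n} {q : ι → ℝ}
  (hS : ∀ i, S (b i) = (q i : ℂ) • b i)

include hS in
theorem hasSum_inner_apply (x y : Space n) :
    HasSum (fun i => (q i : ℂ) * ⟪x, b i⟫_ℂ * ⟪b i, y⟫_ℂ) ⟪x, S y⟫_ℂ := by
  have h := ((b.hasSum_repr y).mapL S).mapL (innerSL ℂ x)
  simp only [map_smul, hS, smul_eq_mul, innerSL_apply_apply, inner_smul_right,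
    HilbertBasis.repr_apply_apply] at h
  exact h.congr_fun fun i => by ring

include hS in
theorem hasSum_inner_self (x : Space n) :
    HasSum (fun i => q i * ‖⟪x, b i⟫_ℂ‖ ^ 2) (⟪x, S x⟫_ℂ).re := by
  refine (Complex.reCLM.hasSum (hasSum_inner_apply b hS x x)).congr_fun fun i => ?_
  rw [← inner_conj_symm (b i) x, mul_assoc, Complex.mul_conj, Complex.normSq_eq_norm_sq]
  simp [← Complex.ofReal_pow]

theorem hasSum_weight (x : Space n) : HasSum (fun i => ‖⟪x, b i⟫_ℂ‖ ^ 2) (‖x‖ ^ 2) := by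
  have h := hasSum_inner_self b (S := (1 : Op n)) (q := fun _ => 1) (fun i => by simp) x
  simpa [inner_self_eq_norm_sq_to_K, ← Complex.ofReal_pow] using h

include hS in
theorem hasSum_diag (a : Idx n) :
    HasSum (fun i => q i * ‖b i a‖ ^ 2) (entry S a a).re := by
  have h := hasSum_inner_self b hS (ket a)
  unfold entry
  refine h.congr_fun fun i => ?_
  rw [inner_ket]

include hS in
theorem tsum_diag_ofReal (hq : ∀ i, 0 ≤ q i) :
    ∑' a, ENNReal.ofReal (entry S a a).re = ∑' i, ENNReal.ofReal (q i) := by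
  have e : ∀ a, ENNReal.ofReal (entry S a a).re = ∑' i, ENNReal.ofReal (q i * ‖b i a‖ ^ 2) :=
    fun a => by
      rw [← (hasSum_diag b hS a).tsum_eq,
        ENNReal.ofReal_tsum_of_nonneg (fun i => mul_nonneg (hq i) (sq_nonneg _))
          (hasSum_diag b hS a).summable]
  simp only [e]
  rw [ENNReal.tsum_comm]
  refine tsum_congr fun i => ?_
  have h := (hasSum_sq (b i)).mul_left (q i)
  rw [← ENNReal.ofReal_tsum_of_nonneg (fun a => mul_nonneg (hq i) (sq_nonneg _)) h.summable, h.tsum_eq,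
    b.orthonormal.1 i]
  simp

/-- A continuous function of an operator acts on eigenvectors by the value at the eigenvalue. -/
theorem cfc_eigen {T : Op n} (hT : IsSelfAdjoint T) {v : Space n} (hv : v ≠ 0) {p : ℝ}
    (h : T v = (p : ℂ) • v) (f : ℝ → ℝ) (hf : Continuous f) :
    cfc f T v = (f p : ℂ) • v := by
  have hp : p ∈ spectrum ℝ T := by
    rw [spectrum.mem_iff]
    intro hu
    obtain ⟨W, hW⟩ := hu.exists_left_inv
    have h2 : ((algebraMap ℝ (Op n) p - T) : Op n) v = 0 := by
      rw [IsScalarTower.algebraMap_apply ℝ ℂ (Op n), Algebra.algebraMap_eq_smul_one]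
      simp [h, -Complex.coe_smul]
    refine hv ?_
    calc v = (W * (algebraMap ℝ (Op n) p - T)) v := by rw [hW]; rfl
      _ = 0 := by rw [mul_apply_eq_comp, h2, map_zero]
  have key : ∀ φ : C(spectrum ℝ T, ℝ), cfcHom (R := ℝ) hT φ v = ((φ ⟨p, hp⟩ : ℝ) : ℂ) • v := by
    haveI : CompactSpace (spectrum ℝ T) := isCompact_iff_compactSpace.1 (spectrum.isCompact T)
    intro φ
    induction φ using ContinuousMap.induction_on_of_compact with
    | const r =>
      have : (ContinuousMap.const (spectrum ℝ T) r) = algebraMap ℝ C(spectrum ℝ T, ℝ) r := rfl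
      rw [this, AlgHomClass.commutes, IsScalarTower.algebraMap_apply ℝ ℂ (Op n),
        Algebra.algebraMap_eq_smul_one]
      simp [-Complex.coe_smul]
    | id => simpa [cfcHom_id] using h
    | star_id => simpa [cfcHom_id, star_trivial] using h
    | add f g hf hg => simp [map_add, hf, hg, add_smul]
    | mul f g hf hg =>
      rw [map_mul, mul_apply_eq_comp, hg, map_smul, hf, smul_smul, ContinuousMap.mul_apply,
        Complex.ofReal_mul, mul_comm]
    | frequently φ hφ =>
      have hcl : IsClosed {φ : C(spectrum ℝ T, ℝ) | cfcHom (R := ℝ) hT φ v = ((φ ⟨p, hp⟩ : ℝ) : ℂ) • v} :=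
        isClosed_eq ((ContinuousLinearMap.apply ℂ (Space n) v).continuous.comp
          (cfcHom_continuous hT))
          ((Complex.continuous_ofReal.comp (ContinuousEvalConst.continuous_eval_const _)).smul
            continuous_const)
      exact hcl.mem_of_frequently_of_tendsto hφ tendsto_id
  rw [cfc_apply f T hT hf.continuousOn]
  exact key _

end eigen

/-- The eigenvalues and eigenvectors of a state. -/
structure Diag (T : Op n) where
  ι : Type
  b : HilbertBasis ι ℂ (Space n)
  p : ι → ℝ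
  eig : ∀ i, T (b i) = (p i : ℂ) • b i
  nonneg : ∀ i, 0 ≤ p i
  le_one : ∀ i, p i ≤ 1

theorem exists_diagData {T : Op n} (hT : IsState T) : Nonempty (Diag T) := by
  obtain ⟨ι, b, p, hp, heig⟩ := exists_eigenbasis hT.1 hT.2.summable
  refine ⟨⟨ι, b, p, heig, hp, fun i => ?_⟩⟩
  have h := tsum_diag_ofReal b heig hp
  rw [← ENNReal.ofReal_tsum_of_nonneg (fun a => diag_nonneg hT.1 a) hT.2.summable, hT.2.tsum_eq] at h
  exact (ENNReal.ofReal_le_ofReal_iff zero_le_one).1 ((ENNReal.le_tsum i).trans h.ge)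

theorem entropy_eq_tsum {T : Op n} (hT : IsState T) (D : Diag T) :
    entropy T = ∑' i, ENNReal.ofReal (Real.negMulLog (D.p i)) := by
  refine tsum_diag_ofReal D.b (fun i => ?_) fun i => Real.negMulLog_nonneg (D.nonneg i) (D.le_one i)
  exact cfc_eigen hT.1.isSelfAdjoint (D.b.orthonormal.ne_zero i) (D.eig i) _
    Real.continuous_negMulLog

/-- Jensen's inequality in an eigenbasis. -/
theorem sum_le_negMulLog {T : Op n} (D : Diag T) {y : Space n} (hy : ‖y‖ = 1) (G : Finset D.ι) :
    ∑ i ∈ G, ‖⟪y, D.b i⟫_ℂ‖ ^ 2 * Real.negMulLog (D.p i)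
      ≤ Real.negMulLog (⟪y, T y⟫_ℂ).re := by
  have hw := hasSum_weight D.b y
  rw [hy, one_pow] at hw
  have hq := hasSum_inner_self D.b D.eig y
  obtain ⟨W, eW⟩ : ∃ W, W = ∑ i ∈ G, ‖⟪y, D.b i⟫_ℂ‖ ^ 2 := ⟨_, rfl⟩
  obtain ⟨P, eP⟩ : ∃ P, P = ∑ i ∈ G, ‖⟪y, D.b i⟫_ℂ‖ ^ 2 * D.p i := ⟨_, rfl⟩
  obtain ⟨Q, eQ⟩ : ∃ Q, Q = (⟪y, T y⟫_ℂ).re := ⟨_, rfl⟩
  rw [← eQ] at hq ⊢
  have hW1 : W ≤ 1 := eW ▸ sum_le_hasSum G (fun i _ => sq_nonneg _) hw
  have hPQ : P ≤ Q := by
    rw [eP]
    simp only [mul_comm (‖⟪y, D.b _⟫_ℂ‖ ^ 2)]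
    exact sum_le_hasSum G (fun i _ => mul_nonneg (D.nonneg i) (sq_nonneg _)) hq
  have hrest : Q - P ≤ 1 - W := by
    have h := (hw.sub hq)
    have h2 := sum_le_hasSum G (fun i _ => by
      show 0 ≤ ‖⟪y, D.b i⟫_ℂ‖ ^ 2 - D.p i * ‖⟪y, D.b i⟫_ℂ‖ ^ 2
      nlinarith [D.le_one i, sq_nonneg ‖⟪y, D.b i⟫_ℂ‖]) h
    rw [Finset.sum_sub_distrib, ← eW] at h2
    simp only [mul_comm (D.p _)] at h2
    rw [← eP] at h2
    linarith
  have hconc := Real.concaveOn_negMulLog.le_map_sum (t := G.insertNone)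
    (w := fun o => o.elim (1 - W) fun i => ‖⟪y, D.b i⟫_ℂ‖ ^ 2)
    (p := fun o => o.elim ((Q - P) / (1 - W)) fun i => D.p i)
    (by
      rintro (_ | i) _
      · simpa using hW1
      · simp)
    (by rw [Finset.sum_insertNone]; simp [← eW])
    (by
      rintro (_ | i) _
      · simpa using div_nonneg (by linarith) (by linarith : 0 ≤ 1 - W)
      · simpa using D.nonneg i)
  simp only [Finset.sum_insertNone, Option.elim_none, Option.elim_some, smul_eq_mul] at hconc
  have e : (1 - W) * ((Q - P) / (1 - W)) + P = Q := by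
    rcases eq_or_ne (1 - W) 0 with h0 | h0
    · rw [h0]; linarith
    · field_simp; ring
  rw [← eP, e] at hconc
  have h0 : 0 ≤ (1 - W) * Real.negMulLog ((Q - P) / (1 - W)) := by
    refine mul_nonneg (by linarith) (Real.negMulLog_nonneg ?_ ?_)
    · exact div_nonneg (by linarith) (by linarith)
    · exact div_le_one_of_le₀ hrest (by linarith)
  linarith

/-- The corner entropy dominates the weighted eigenvalue entropies. -/
theorem nent_comp_ge {T : Op n} (hT : IsState T) (D : Diag T) (G : Finset D.ι) (F : Finset (Idx n)) :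
    ∑ i ∈ G, Real.negMulLog (D.p i) * ∑ a ∈ F, ‖D.b i a‖ ^ 2 ≤ nent (comp T F) := by
  have hM := comp_posSemidef hT.1 F
  obtain ⟨U, hU, hU', hdec⟩ := spectral_decomp hM.1
  obtain ⟨y, ey⟩ : ∃ y : F → Space n, y = fun j => ∑ a : F, U a j • ket (a : Idx n) := ⟨_, rfl⟩
  have hyn : ∀ j, ‖y j‖ = 1 := fun j => by
    have h : ⟪y j, y j⟫_ℂ = 1 := by
      rw [ey]
      refine ((ket_orthonormal.comp _ Subtype.val_injective).inner_sum (fun a : F => U a j)
        (fun a : F => U a j) Finset.univ).trans ?_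
      have := congrFun (congrFun hU' j) j
      simpa [Matrix.mul_apply, Matrix.conjTranspose_apply, RCLike.star_def] using this
    rw [inner_self_eq_norm_sq_to_K] at h
    have h' : ‖y j‖ ^ 2 = 1 := Complex.ofReal_injective (by push_cast; exact h)
    nlinarith [norm_nonneg (y j)]
  have hq : ∀ j, (⟪y j, T (y j)⟫_ℂ).re = hM.1.eigenvalues j := fun j => by
    have e : ⟪y j, T (y j)⟫_ℂ = (U.conjTranspose * comp T F * U) j j := by
      rw [ey]
      simp only [map_sum, map_smul, sum_inner, inner_sum, inner_smul_left, inner_smul_right,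
        Matrix.mul_apply, Matrix.conjTranspose_apply, comp, entry, Finset.sum_mul, RCLike.star_def]
      simp only [Finset.mul_sum]
      exact Finset.sum_congr rfl fun a _ => Finset.sum_congr rfl fun b _ => by ring
    have e2 : U.conjTranspose * comp T F * U
        = Matrix.diagonal fun i => (hM.1.eigenvalues i : ℂ) := by
      conv_lhs => rw [hdec]
      simp only [Matrix.mul_assoc, hU', Matrix.mul_one]
      rw [← Matrix.mul_assoc, hU', Matrix.one_mul]
    rw [e, e2]
    simp
  have hw : ∀ i, ∑ j, ‖⟪y j, D.b i⟫_ℂ‖ ^ 2 = ∑ a ∈ F, ‖D.b i a‖ ^ 2 := fun i => by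
    obtain ⟨x, ex⟩ : ∃ x : F → ℂ, x = fun a : F => D.b i (a : Idx n) := ⟨_, rfl⟩
    have e1 : ∀ j, ⟪y j, D.b i⟫_ℂ = (U.conjTranspose.mulVec x) j := fun j => by
      rw [ey]
      simp [sum_inner, inner_smul_left, inner_ket, Matrix.mulVec, dotProduct, ex, mul_comm]
    have e2 : star (U.conjTranspose.mulVec x) ⬝ᵥ (U.conjTranspose.mulVec x) = star x ⬝ᵥ x := by
      rw [Matrix.star_mulVec, Matrix.conjTranspose_conjTranspose, ← Matrix.dotProduct_mulVec,
        Matrix.mulVec_mulVec, hU, Matrix.one_mulVec]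
    have e3 := congrArg Complex.re e2
    simp only [dotProduct, Pi.star_apply, RCLike.star_def, Complex.re_sum,
      ← Complex.normSq_eq_conj_mul_self, Complex.ofReal_re, Complex.normSq_eq_norm_sq, ← e1] at e3
    rw [e3, ex]
    exact Finset.sum_coe_sort F fun a => ‖D.b i a‖ ^ 2
  rw [nent, dif_pos hM.1]
  refine le_trans ?_ (Finset.sum_le_sum fun j _ => (hq j) ▸ sum_le_negMulLog D (hyn j) G)
  rw [Finset.sum_comm]
  refine (Finset.sum_congr rfl fun i _ => ?_).le
  rw [← Finset.sum_mul, hw, mul_comm]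

/-- The number of the tail of the diagonal outside `G`. -/
noncomputable def tail {T : Op n} (D : Diag T) (G : Finset D.ι) (a : Idx n) : ℝ :=
  (entry T a a).re - ∑ i ∈ G, D.p i * ‖D.b i a‖ ^ 2

/-- The corner entropy is at most that of finitely many eigenvectors plus the remaining diagonal. -/
theorem nent_comp_le {T : Op n} (hT : IsState T) (D : Diag T) (G : Finset D.ι) (F : Finset (Idx n)) :
    nent (comp T F) ≤ ∑ i ∈ G, Real.negMulLog (D.p i * ∑ a ∈ F, ‖D.b i a‖ ^ 2)
      + ∑ a ∈ F, Real.negMulLog (tail D G a) := by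
  classical
  obtain ⟨A, eA⟩ : ∃ A : Matrix F F ℂ, A = fun a b : F =>
      ∑ i : G, (D.p i : ℂ) * D.b i (a : Idx n) * star (D.b i (b : Idx n)) := ⟨_, rfl⟩
  obtain ⟨W, eW⟩ : ∃ W : Matrix F G ℂ, W = fun (a : F) (i : G) =>
      (Real.sqrt (D.p i) : ℂ) * D.b i (a : Idx n) := ⟨_, rfl⟩
  have hAW : A = W * W.conjTranspose := by
    rw [eA]
    funext a b
    rw [Matrix.mul_apply]
    refine Finset.sum_congr rfl fun i _ => ?_
    have hs : ((Real.sqrt (D.p i) : ℝ) : ℂ) * ((Real.sqrt (D.p i) : ℝ) : ℂ) = (D.p i : ℂ) := by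
      rw [← Complex.ofReal_mul, Real.mul_self_sqrt (D.nonneg i)]
    rw [Matrix.conjTranspose_apply, eW]
    simp only [RCLike.star_def, map_mul, Complex.conj_ofReal]
    rw [← hs]
    ring
  have hA : A.PosSemidef := hAW ▸ Matrix.posSemidef_self_mul_conjTranspose W
  have hM := comp_posSemidef hT.1 F
  have hB : (comp T F - A).PosSemidef := by
    refine Matrix.PosSemidef.of_dotProduct_mulVec_nonneg (hM.1.sub hA.1) fun x => ?_
    obtain ⟨y, ey⟩ : ∃ y : Space n, y = ∑ a : F, x a • ket (a : Idx n) := ⟨_, rfl⟩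
    have e1 : star x ⬝ᵥ (comp T F).mulVec x = ⟪y, T y⟫_ℂ := by
      rw [ey]
      simp only [map_sum, map_smul, sum_inner, inner_sum, inner_smul_left, inner_smul_right,
        dotProduct, Matrix.mulVec, comp, entry, Finset.mul_sum, Pi.star_apply, RCLike.star_def]
      rw [Finset.sum_comm]
      exact Finset.sum_congr rfl fun a _ => Finset.sum_congr rfl fun b _ => by ring
    have e2 : star x ⬝ᵥ A.mulVec x = ((∑ i ∈ G, D.p i * ‖⟪y, D.b i⟫_ℂ‖ ^ 2 : ℝ) : ℂ) := by
      rw [← Finset.sum_coe_sort G, Complex.ofReal_sum, eA]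
      simp only [dotProduct, Matrix.mulVec, Finset.mul_sum, Finset.sum_mul, Pi.star_apply]
      rw [Finset.sum_congr rfl fun a _ => Finset.sum_comm, Finset.sum_comm]
      refine Finset.sum_congr rfl fun i _ => ?_
      rw [Complex.ofReal_mul, ← Complex.normSq_eq_norm_sq, Complex.normSq_eq_conj_mul_self, ey]
      simp only [sum_inner, inner_smul_left, inner_ket, map_sum, Finset.mul_sum, Finset.sum_mul,
        map_mul, Complex.conj_conj, RCLike.star_def]
      exact Finset.sum_congr rfl fun a _ => Finset.sum_congr rfl fun b _ => by ring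
    rw [Matrix.sub_mulVec, dotProduct_sub, e1, e2]
    have hre := sum_le_hasSum G (fun i _ => mul_nonneg (D.nonneg i) (sq_nonneg _))
      (hasSum_inner_self D.b D.eig y)
    have h3 := hT.1.inner_nonneg_right y
    rw [Complex.le_def] at h3 ⊢
    simp only [Complex.sub_re, Complex.sub_im, Complex.ofReal_re, Complex.ofReal_im, Complex.zero_re,
      Complex.zero_im, sub_zero] at h3 ⊢
    exact ⟨by linarith, h3.2⟩
  have h1 := nent_add_le hA hB
  rw [add_sub_cancel] at h1
  refine h1.trans (add_le_add ?_ ?_)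
  · have h2 := nent_le_sum_rankOne (m := F) (fun i : G => D.p i) (fun i => D.nonneg i)
      (fun i a => D.b i a)
    rw [← eA] at h2
    refine h2.trans_eq ?_
    rw [← Finset.sum_coe_sort G]
    exact Finset.sum_congr rfl fun i _ => by
      rw [Finset.sum_coe_sort F fun a => ‖D.b (i : D.ι) a‖ ^ 2]
  · refine (nent_le_sum_diag hB).trans_eq ?_
    rw [← Finset.sum_coe_sort F fun a => Real.negMulLog (tail D G a)]
    refine Finset.sum_congr rfl fun a _ => congrArg _ ?_
    rw [Matrix.sub_apply, eA, tail, ← Finset.sum_coe_sort G, Complex.sub_re, Complex.re_sum]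
    congr 1
    refine Finset.sum_congr rfl fun i _ => ?_
    rw [mul_assoc, RCLike.star_def, Complex.mul_conj, Complex.normSq_eq_norm_sq,
      ← Complex.ofReal_mul, Complex.ofReal_re]

theorem summable_exp_photons (n : ℕ) : Summable fun a : Idx n => Real.exp (-(photons a : ℝ)) := by
  induction n with
  | zero => exact Summable.of_finite
  | succ n ih =>
    refine (Fin.consEquiv fun _ => ℕ).summable_iff.1 ?_
    have h := Summable.mul_of_nonneg Real.summable_exp_neg_nat ih (fun k => (Real.exp_pos _).le)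
      fun a => (Real.exp_pos _).le
    refine h.congr fun p => ?_
    simp only [Function.comp_apply, Fin.consEquiv_apply, photons, Fin.sum_univ_succ, Fin.cons_zero,
      Fin.cons_succ]
    push_cast
    rw [← Real.exp_add]
    ring_nf

/-- The entropy is finite and is the limit of the corner entropies. -/
theorem tendsto_comp {T : Op n} (hT : IsState T) (hE : FinitePhotons T) :
    ∃ S : ℝ, 0 ≤ S ∧ entropy T = ENNReal.ofReal S ∧
      Tendsto (fun F : Finset (Idx n) => nent (comp T F)) atTop (𝓝 S) := by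
  obtain ⟨D⟩ := exists_diagData hT
  have hd1 : ∀ a, (entry T a a).re ≤ 1 := fun a =>
    le_hasSum hT.2 a fun c _ => diag_nonneg hT.1 c
  obtain ⟨M, eM⟩ : ∃ M : Idx n → ℝ, M = fun a =>
      (photons a : ℝ) * (entry T a a).re + Real.exp (-(photons a : ℝ)) := ⟨_, rfl⟩
  have hMs : Summable M := eM ▸ hE.add (summable_exp_photons n)
  have htail : ∀ G a, 0 ≤ tail D G a ∧ tail D G a ≤ (entry T a a).re := fun G a => by
    have h := sum_le_hasSum G (fun i _ => mul_nonneg (D.nonneg i) (sq_nonneg ‖D.b i a‖))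
      (hasSum_diag D.b D.eig a)
    have h' : (0 : ℝ) ≤ ∑ i ∈ G, D.p i * ‖D.b i a‖ ^ 2 :=
      Finset.sum_nonneg fun i _ => mul_nonneg (D.nonneg i) (sq_nonneg _)
    exact ⟨by unfold tail; linarith, by unfold tail; linarith⟩
  have hbound : ∀ G a, 0 ≤ Real.negMulLog (tail D G a) ∧ Real.negMulLog (tail D G a) ≤ M a := by
    intro G a
    obtain ⟨h0, h1⟩ := htail G a
    refine ⟨Real.negMulLog_nonneg h0 (h1.trans (hd1 a)), ?_⟩
    refine (negMulLog_le_cross h0 (Real.exp_pos (-(photons a : ℝ) - 1)).le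
      (fun h => absurd h (Real.exp_ne_zero _))).trans ?_
    rw [Real.log_exp, eM]
    have h2 : Real.exp (-(photons a : ℝ) - 1) ≤ Real.exp (-(photons a : ℝ)) :=
      Real.exp_le_exp.2 (by linarith)
    have h3 : (photons a : ℝ) * tail D G a ≤ (photons a : ℝ) * (entry T a a).re :=
      mul_le_mul_of_nonneg_left h1 (Nat.cast_nonneg _)
    linarith
  have hw : ∀ i, Tendsto (fun F : Finset (Idx n) => ∑ a ∈ F, ‖D.b i a‖ ^ 2) atTop (𝓝 1) := fun i => by
    have h := hasSum_sq (D.b i)
    rw [D.b.orthonormal.1 i, one_pow] at h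
    exact h
  have hp0 : ∀ i, 0 ≤ Real.negMulLog (D.p i) := fun i => Real.negMulLog_nonneg (D.nonneg i) (D.le_one i)
  have hsum : Summable fun i => Real.negMulLog (D.p i) := by
    refine summable_of_sum_le hp0 (c := ∑' a, M a) fun G => ?_
    have hl : Tendsto (fun F : Finset (Idx n) =>
        ∑ i ∈ G, Real.negMulLog (D.p i) * ∑ a ∈ F, ‖D.b i a‖ ^ 2) atTop
        (𝓝 (∑ i ∈ G, Real.negMulLog (D.p i))) := by
      simpa using tendsto_finsetSum G fun i _ => (hw i).const_mul (Real.negMulLog (D.p i))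
    refine le_of_tendsto' hl fun F => (nent_comp_ge hT D G F).trans ?_
    refine (nent_comp_le hT D ∅ F).trans ?_
    rw [Finset.sum_empty, zero_add]
    exact (Finset.sum_le_sum fun a _ => (hbound ∅ a).2).trans
      (hMs.sum_le_tsum F fun a _ => (hbound ∅ a).1.trans (hbound ∅ a).2)
  have hΦs : ∀ G, Summable fun a => Real.negMulLog (tail D G a) := fun G =>
    Summable.of_nonneg_of_le (fun a => (hbound G a).1) (fun a => (hbound G a).2) hMs
  have hΦ : Tendsto (fun G => ∑' a, Real.negMulLog (tail D G a)) atTop (𝓝 0) := by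
    have h := tendsto_tsum_of_dominated_convergence (𝓕 := atTop) (bound := M)
      (f := fun G a => Real.negMulLog (tail D G a)) (g := fun _ => (0 : ℝ)) hMs (fun a => ?_)
      (Eventually.of_forall fun G a => by
        rw [Real.norm_of_nonneg (hbound G a).1]
        exact (hbound G a).2)
    · simpa using h
    · have h1 : Tendsto (fun G => tail D G a) atTop (𝓝 0) := by
        have h0 : Tendsto (fun G => ∑ i ∈ G, D.p i * ‖D.b i a‖ ^ 2) atTop
            (𝓝 (entry T a a).re) := hasSum_diag D.b D.eig a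
        simpa [tail] using h0.const_sub (entry T a a).re
      simpa [Function.comp_def] using (Real.continuous_negMulLog.tendsto 0).comp h1
  refine ⟨∑' i, Real.negMulLog (D.p i), tsum_nonneg hp0, ?_, ?_⟩
  · rw [entropy_eq_tsum hT D, ENNReal.ofReal_tsum_of_nonneg hp0 hsum]
  · rw [Metric.tendsto_nhds]
    intro ε hε
    obtain ⟨G, hG1, hG2⟩ := ((Metric.tendsto_nhds.1 hsum.hasSum (ε / 3) (by linarith)).and
      (Metric.tendsto_nhds.1 hΦ (ε / 3) (by linarith))).exists
    have hl : Tendsto (fun F : Finset (Idx n) =>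
        ∑ i ∈ G, Real.negMulLog (D.p i) * ∑ a ∈ F, ‖D.b i a‖ ^ 2) atTop
        (𝓝 (∑ i ∈ G, Real.negMulLog (D.p i))) := by
      simpa using tendsto_finsetSum G fun i _ => (hw i).const_mul (Real.negMulLog (D.p i))
    have hu : Tendsto (fun F : Finset (Idx n) =>
        ∑ i ∈ G, Real.negMulLog (D.p i * ∑ a ∈ F, ‖D.b i a‖ ^ 2)) atTop
        (𝓝 (∑ i ∈ G, Real.negMulLog (D.p i))) := tendsto_finsetSum G fun i _ => by
      simpa [Function.comp_def] using
        (Real.continuous_negMulLog.tendsto _).comp ((hw i).const_mul (D.p i))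
    filter_upwards [Metric.tendsto_nhds.1 hl (ε / 3) (by linarith),
      Metric.tendsto_nhds.1 hu (ε / 3) (by linarith)] with F hF1 hF2
    have k1 := nent_comp_ge hT D G F
    have k2 := nent_comp_le hT D G F
    have k3 := (hΦs G).sum_le_tsum F fun a _ => (hbound G a).1
    simp only [Real.dist_eq, abs_lt, sub_zero] at hG1 hG2 hF1 hF2 ⊢
    constructor <;> linarith [hF1.1, hF1.2, hF2.1, hF2.2, hG1.1, hG1.2, hG2.1, hG2.2]

end Vale.Agent.P369.Fock
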