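import Mathlib
import Vale.Agent.P369.Fock.Entropy
import Vale.Agent.P369.Fock.Att

/-!
# P369: the beam splitter output for a vacuum second input
-/

namespace Vale.Agent.P369.Fock

open Filter
open scoped ENNReal InnerProductSpace CStarAlgebra Topology

variable {n : ℕ}

theorem entry_vacuum (a b : Idx n) :
    entry (vacuum n) a b = if a = 0 ∧ b = 0 then 1 else 0 := by
  classical
  have hz : (fun _ => 0 : Idx n) = 0 := rfl
  simp only [entry, vacuum, hz, ContinuousLinearMap.smulRight_apply, innerSL_apply_apply,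
    inner_smul_right]
  rw [orthonormal_iff_ite.1 ket_orthonormal, orthonormal_iff_ite.1 ket_orthonormal]
  by_cases ha : a = 0 <;> by_cases hb : b = 0 <;>
    simp [ha, hb, eq_comm (a := (0 : Idx n))]

/-- The amplitude with no photon in the second input. -/
theorem amp_vacuum {η : ℝ} (h0 : 0 ≤ η) (h1 : η ≤ 1) (c d : ℕ) :
    amp η c d (c + d) 0
      = (-1) ^ d * Real.sqrt (((c + d).choose d : ℝ) * η ^ c * (1 - η) ^ d) := by
  have hw : (0 : ℝ) ≤ 1 - η := sub_nonneg.2 h1
  rw [amp, if_pos (by rw [add_zero]), Finset.sum_eq_single c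
    (fun i _ hi => by simp [hi]) (fun h => by simp at h)]
  rw [show Finset.range (0 + 1) = {0} from rfl, Finset.sum_singleton, if_pos (add_zero c)]
  simp only [Nat.choose_zero_right, Nat.cast_one, pow_zero, Nat.sub_self, mul_one,
    Nat.factorial_zero, Nat.add_sub_cancel_left]
  have hC : (0 : ℝ) < ((c + d).choose d : ℝ) :=
    Nat.cast_pos.2 (Nat.choose_pos (Nat.le_add_left d c))
  have hf : ((c + d).factorial : ℝ) = (c + d).choose d * c.factorial * d.factorial := by
    rw [← Nat.add_choose_mul_factorial_mul_factorial c d, Nat.cast_mul, Nat.cast_mul]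
  rw [hf, show (c.factorial : ℝ) * d.factorial / ((c + d).choose d * c.factorial * d.factorial)
      = ((c + d).choose d : ℝ)⁻¹ by field_simp, Real.sqrt_inv, Real.sqrt_mul (by positivity),
    Real.sqrt_mul (by positivity), neg_pow, Real.sqrt_eq_iff_eq_sq (x := η ^ c) (by positivity)
      (by positivity : (0 : ℝ) ≤ Real.sqrt η ^ c) |>.2 (by rw [← pow_mul, mul_comm, pow_mul, Real.sq_sqrt h0]),
    Real.sqrt_eq_iff_eq_sq (x := (1 - η) ^ d) (by positivity)
      (by positivity : (0 : ℝ) ≤ Real.sqrt (1 - η) ^ d) |>.2 (by rw [← pow_mul, mul_comm, pow_mul, Real.sq_sqrt hw])]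
  field_simp
  rw [Nat.choose_symm_add]
  linear_combination (-(Real.sqrt η ^ c * Real.sqrt (1 - η) ^ d)) * Real.sq_sqrt hC.le

theorem ampN_vacuum {η : ℝ} (h0 : 0 ≤ η) (h1 : η ≤ 1) (c d : Idx n) :
    ampN η c d (c + d) 0 = (-1) ^ photons d * coef η c d := by
  simp only [ampN, Pi.add_apply, Pi.zero_apply, amp_vacuum h0 h1]
  rw [Finset.prod_mul_distrib, Finset.prod_pow_eq_pow_sum]
  rfl

theorem outTerm_vacuum {η : ℝ} (h0 : 0 ≤ η) (h1 : η ≤ 1) (ρ : Op n) (c c' d : Idx n) :
    outTerm η ρ (vacuum n) c c' d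
      = ((coef η c d * coef η c' d : ℝ) : ℂ) * entry ρ (c + d) (c' + d) := by
  classical
  have hmem : ∀ x : Idx n, (x + d) ∈ Fintype.piFinset fun i => Finset.range (x i + d i + 1) :=
    fun x => Fintype.mem_piFinset.2 fun i => Finset.mem_range.2 (by simp)
  have hz : ∀ x a : Idx n, a ∈ Fintype.piFinset (fun i => Finset.range (x i + d i + 1)) → a ≠ x + d →
      (fun i => x i + d i - a i) ≠ 0 := fun x a ha hne h => hne <| funext fun i => by
    have h1 := Finset.mem_range.1 (Fintype.mem_piFinset.1 ha i)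
    have h2 := congrFun h i
    simp only [Pi.zero_apply, Pi.add_apply] at h2 ⊢
    omega
  have hself : ∀ x : Idx n, (fun i => x i + d i - (x + d) i) = 0 := fun x => funext fun i => by simp
  rw [outTerm, Finset.sum_eq_single (c + d)]
  · rw [Finset.sum_eq_single (c' + d)]
    · simp only [hself, entry_vacuum, and_self, if_true, mul_one, ampN_vacuum h0 h1]
      congr 2
      rw [mul_mul_mul_comm, ← mul_pow, neg_one_mul, neg_neg, one_pow, one_mul]
    · intro a ha hne
      simp [entry_vacuum, hz c' a ha hne]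
    · intro h; exact absurd (hmem c') h
  · intro a ha hne
    refine Finset.sum_eq_zero fun a' _ => ?_
    simp [entry_vacuum, hz c a ha hne]
  · intro h; exact absurd (hmem c) h

/-- Summing over the pairs with a given total. -/
theorem tsum_coef {η : ℝ} (h0 : 0 ≤ η) (h1 : η ≤ 1) (w : Idx n → ℝ≥0∞) :
    ∑' c, ∑' d, ENNReal.ofReal (coef η c d ^ 2) * w (c + d) = ∑' a, w a := by
  classical
  have e : ∀ c d : Idx n, ENNReal.ofReal (coef η c d ^ 2) * w (c + d)
      = ∑' a, (if a = c + d then ENNReal.ofReal (coef η c d ^ 2) * w a else 0) := fun c d => by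
    rw [tsum_ite_eq (c + d) fun a => ENNReal.ofReal (coef η c d ^ 2) * w a]
  simp only [e]
  rw [tsum_congr fun c => ENNReal.tsum_comm, ENNReal.tsum_comm]
  refine tsum_congr fun a => ?_
  rw [ENNReal.tsum_comm, tsum_eq_sum (s := Fintype.piFinset fun i => Finset.range (a i + 1))]
  · have h : ∀ d ∈ Fintype.piFinset (fun i => Finset.range (a i + 1)),
        (∑' c, if a = c + d then ENNReal.ofReal (coef η c d ^ 2) * w a else 0)
          = ENNReal.ofReal (coef η (a - d) d ^ 2) * w a := by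
      intro d hd
      have hle : d ≤ a := fun i => Nat.lt_succ_iff.1 (Finset.mem_range.1 (Fintype.mem_piFinset.1 hd i))
      rw [tsum_eq_single (a - d), if_pos (tsub_add_cancel_of_le hle).symm]
      intro c hc
      rw [if_neg fun h => hc (by rw [h, add_tsub_cancel_right])]
    rw [Finset.sum_congr rfl h, ← Finset.sum_mul, ← ENNReal.ofReal_sum_of_nonneg fun d _ => sq_nonneg _,
      sum_coef_sq h0 h1, ENNReal.ofReal_one, one_mul]
  · intro d hd
    refine ENNReal.tsum_eq_zero.2 fun c => if_neg fun h => hd ?_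
    subst h
    exact Fintype.mem_piFinset.2 fun i => Finset.mem_range.2 (by simp)

theorem coef_sq_le_one {η : ℝ} (h0 : 0 ≤ η) (h1 : η ≤ 1) (c d : Idx n) : coef η c d ^ 2 ≤ 1 := by
  have h := Finset.single_le_sum (f := fun e : Idx n => coef η (c + d - e) e ^ 2)
    (fun e _ => sq_nonneg _)
    (a := d) (Fintype.mem_piFinset.2 fun i => Finset.mem_range.2 (by simp) :
      d ∈ Fintype.piFinset fun i => Finset.range ((c + d) i + 1))
  rw [sum_coef_sq h0 h1 (c + d)] at h
  simpa [add_tsub_cancel_right] using h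

/-- A vector after the loss of `d` photons. -/
noncomputable def shiftVec {η : ℝ} (h0 : 0 ≤ η) (h1 : η ≤ 1) (x : Space n) (d : Idx n) : Space n :=
  ⟨fun c => (coef η c d : ℂ) * x (c + d), by
    refine memℓp_gen ?_
    simp only [ENNReal.toReal_ofNat]
    refine Summable.of_nonneg_of_le (fun c => Real.rpow_nonneg (norm_nonneg _) _) (fun c => ?_)
      ((hasSum_sq x).summable.comp_injective (add_left_injective d))
    simp only [Real.rpow_two, norm_mul, Complex.norm_real, mul_pow, Function.comp_apply,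
      Real.norm_eq_abs, sq_abs]
    exact mul_le_of_le_one_left (sq_nonneg _) (coef_sq_le_one h0 h1 c d)⟩

theorem shiftVec_apply {η : ℝ} (h0 : 0 ≤ η) (h1 : η ≤ 1) (x : Space n) (d c : Idx n) :
    shiftVec h0 h1 x d c = (coef η c d : ℂ) * x (c + d) := rfl

theorem tsum_shiftVec {η : ℝ} (h0 : 0 ≤ η) (h1 : η ≤ 1) (x : Space n) :
    ∑' d, ENNReal.ofReal (‖shiftVec h0 h1 x d‖ ^ 2) = ENNReal.ofReal (‖x‖ ^ 2) := by
  have e : ∀ y : Space n, ENNReal.ofReal (‖y‖ ^ 2) = ∑' c, ENNReal.ofReal (‖y c‖ ^ 2) := fun y => by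
    rw [← (hasSum_sq y).tsum_eq,
      ENNReal.ofReal_tsum_of_nonneg (fun c => sq_nonneg _) (hasSum_sq y).summable]
  simp only [e]
  rw [ENNReal.tsum_comm, ← tsum_coef h0 h1 fun a => ENNReal.ofReal (‖x a‖ ^ 2)]
  refine tsum_congr fun c => tsum_congr fun d => ?_
  rw [← ENNReal.ofReal_mul (sq_nonneg _), shiftVec_apply, norm_mul, mul_pow, Complex.norm_real,
    Real.norm_eq_abs, sq_abs]

/-- The output state exists. -/
theorem exists_output {η : ℝ} (h0 : 0 ≤ η) (h1 : η ≤ 1) {ρ : Op n} (hρ : IsState ρ) :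
    ∃ ρC, IsOutput η ρ (vacuum n) ρC := by
  obtain ⟨D⟩ := exists_diagData hρ
  obtain ⟨v, ev⟩ : ∃ v : D.ι × Idx n → Space n, v = fun q => shiftVec h0 h1 (D.b q.1) q.2 := ⟨_, rfl⟩
  obtain ⟨R, eR⟩ : ∃ R : D.ι × Idx n → Op n,
      R = fun q => (D.p q.1 : ℂ) • (innerSL ℂ (v q)).smulRight (v q) := ⟨_, rfl⟩
  have hp1 : ∑' i, ENNReal.ofReal (D.p i) = 1 := by
    rw [← tsum_diag_ofReal D.b D.eig D.nonneg,
      ← ENNReal.ofReal_tsum_of_nonneg (fun a => diag_nonneg hρ.1 a) hρ.2.summable, hρ.2.tsum_eq,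
      ENNReal.ofReal_one]
  have hmass : ∑' q, ENNReal.ofReal (D.p q.1 * ‖v q‖ ^ 2) = 1 := by
    rw [ENNReal.tsum_prod']
    refine (tsum_congr fun i => ?_).trans hp1
    simp only [ev, ENNReal.ofReal_mul (D.nonneg i)]
    rw [ENNReal.tsum_mul_left, tsum_shiftVec, D.b.orthonormal.1 i]
    simp
  have hms : Summable fun q => D.p q.1 * ‖v q‖ ^ 2 := by
    have h := ENNReal.summable_toReal (hmass.trans_ne ENNReal.one_ne_top)
    exact h.congr fun q => ENNReal.toReal_ofReal (mul_nonneg (D.nonneg _) (sq_nonneg _))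
  have hRs : Summable R := by
    refine Summable.of_norm_bounded hms fun q => ?_
    rw [eR, norm_smul, ContinuousLinearMap.norm_smulRight_apply, innerSL_apply_norm, Complex.norm_real,
      Real.norm_of_nonneg (D.nonneg _), sq]
  obtain ⟨σ, eσ⟩ : ∃ σ : Op n, σ = ∑' q, R q := ⟨_, rfl⟩
  have hσ : ∀ x y, HasSum (fun q => (D.p q.1 : ℂ) * (⟪v q, y⟫_ℂ * ⟪x, v q⟫_ℂ)) ⟪x, σ y⟫_ℂ := by
    intro x y
    have h := hRs.hasSum.mapL ((innerSL ℂ x).comp (ContinuousLinearMap.apply ℂ (Space n) y))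
    rw [← eσ] at h
    simp only [ContinuousLinearMap.comp_apply, ContinuousLinearMap.apply_apply, innerSL_apply_apply] at h
    refine h.congr_fun fun q => ?_
    simp [eR, inner_smul_right, -Complex.coe_smul]
  have hquad : ∀ x, HasSum (fun q => ((D.p q.1 * ‖⟪v q, x⟫_ℂ‖ ^ 2 : ℝ) : ℂ)) ⟪x, σ x⟫_ℂ := by
    intro x
    refine (hσ x x).congr_fun fun q => ?_
    rw [← inner_conj_symm x (v q), Complex.mul_conj, Complex.normSq_eq_norm_sq, ← Complex.ofReal_mul]
  have hre : ∀ x, HasSum (fun q => D.p q.1 * ‖⟪v q, x⟫_ℂ‖ ^ 2) (⟪x, σ x⟫_ℂ).re := fun x =>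
    (Complex.reCLM.hasSum (hquad x)).congr_fun fun q => (Complex.ofReal_re _).symm
  have hpos : σ.IsPositive := by
    rw [ContinuousLinearMap.isPositive_iff_complex]
    intro x
    have hx : ⟪σ x, x⟫_ℂ = (((⟪x, σ x⟫_ℂ).re : ℝ) : ℂ) := by
      rw [← inner_conj_symm, (hquad x).unique (Complex.ofRealCLM.hasSum (hre x)), Complex.ofRealCLM_apply,
        Complex.conj_ofReal, Complex.ofReal_re]
    rw [hx]
    exact ⟨by simp, by simpa using (hre x).nonneg fun q => mul_nonneg (D.nonneg _) (sq_nonneg _)⟩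
  have hdiag : ∀ c, HasSum (fun q => D.p q.1 * ‖v q c‖ ^ 2) (entry σ c c).re := fun c => by
    refine (hre (ket c)).congr_fun fun q => ?_
    rw [← inner_conj_symm, inner_ket, RCLike.norm_conj]
  have htr : ∑' c, ENNReal.ofReal (entry σ c c).re = 1 := by
    have e : ∀ c, ENNReal.ofReal (entry σ c c).re = ∑' q, ENNReal.ofReal (D.p q.1 * ‖v q c‖ ^ 2) :=
      fun c => by
        rw [← (hdiag c).tsum_eq, ENNReal.ofReal_tsum_of_nonneg
          (fun q => mul_nonneg (D.nonneg _) (sq_nonneg _)) (hdiag c).summable]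
    simp only [e]
    rw [ENNReal.tsum_comm]
    refine (tsum_congr fun q => ?_).trans hmass
    have h := (hasSum_sq (v q)).mul_left (D.p q.1)
    rw [← h.tsum_eq, ENNReal.ofReal_tsum_of_nonneg
      (fun c => mul_nonneg (D.nonneg _) (sq_nonneg _)) h.summable]
  have hsum : HasSum (fun c => (entry σ c c).re) 1 := by
    have h := ENNReal.hasSum_toReal (htr.trans_ne ENNReal.one_ne_top)
    rw [← ENNReal.tsum_toReal_eq fun a => ENNReal.ofReal_ne_top, htr, ENNReal.toReal_one] at h
    exact h.congr_fun fun c => (ENNReal.toReal_ofReal (diag_nonneg hpos c)).symm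
  refine ⟨σ, ⟨hpos, hsum⟩, fun c c' => ?_⟩
  have h := hσ (ket c) (ket c')
  rw [← (Equiv.prodComm (Idx n) D.ι).hasSum_iff] at h
  have hf : ∀ d, HasSum (fun i => ((fun q : D.ι × Idx n => (D.p q.1 : ℂ)
      * (⟪v q, ket c'⟫_ℂ * ⟪ket c, v q⟫_ℂ)) ∘ Equiv.prodComm (Idx n) D.ι) (d, i))
      (outTerm η ρ (vacuum n) c c' d) := by
    intro d
    rw [outTerm_vacuum h0 h1]
    refine ((hasSum_inner_apply D.b D.eig (ket (c + d)) (ket (c' + d))).mul_left _).congr_fun
      fun i => ?_
    rw [Function.comp_apply, Equiv.prodComm_apply, ← inner_conj_symm _ (ket c'), inner_ket, inner_ket,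
      ev]
    simp only [Prod.swap_prod_mk, shiftVec_apply]
    rw [inner_ket, ← inner_conj_symm _ (ket (c' + d)), inner_ket, map_mul, Complex.conj_ofReal]
    push_cast
    ring
  exact h.prod_fiberwise hf

end Vale.Agent.P369.Fock
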