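import Mathlib
import Vale.Agent.P369.Fock.Flow
import Vale.Agent.P369.Fock.Output

/-!
# P369: from the finite infinitesimal inequality to the entropy photon-number inequality
-/

namespace Vale.Agent.P369.Fock

open Matrix VAgent.P358 Filter
open scoped ComplexOrder Topology ENNReal

variable {n K : ℕ}

theorem att_smul (η : ℝ) (r : ℂ) (M : Matrix (box n K) (box n K) ℂ) :
    att η (r • M) = r • att η M := by
  simp only [att, Matrix.mul_smul, Matrix.smul_mul, Finset.smul_sum]

theorem continuous_att_matrix (η : ℝ) :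
    Continuous fun M : Matrix (box n K) (box n K) ℂ => att η M := by
  refine continuous_finsetSum _ fun d _ => ?_
  exact (continuous_const.matrix_mul continuous_id).matrix_mul continuous_const

theorem att_one (M : Matrix (box n K) (box n K) ℂ) : att 1 M = M := by
  classical
  ext c c'
  have h : ∀ x d : Idx n, coef 1 x d = if d = 0 then 1 else 0 := fun x d => by
    split_ifs with hd
    · simp [coef, hd]
    · obtain ⟨i, hi⟩ := Function.ne_iff.1 hd
      refine Finset.prod_eq_zero (Finset.mem_univ i) ?_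
      simp at hi
      simp [zero_pow hi]
  rw [att_apply, Finset.sum_eq_single (0 : Idx n)]
  · simp [h, ext]
  · intro d _ hd; simp [h, hd]
  · intro h'; exact absurd (mem_box.2 (by simp [photons])) h'

/-- The bound on the truncated space, for arbitrary states. -/
theorem fin_bound (hR : RateBound n) {η : ℝ} (h0 : 0 < η) (h1 : η ≤ 1)
    {M : Matrix (box n K) (box n K) ℂ} (hM : M.PosSemidef) (htr : M.trace = 1) {N : ℝ} (hN : 0 < N)
    (hS : n * g N < nent M) : n * g (η * N) ≤ nent (att η M) := by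
  obtain ⟨I, eI⟩ : ∃ I : Matrix (box n K) (box n K) ℂ,
      I = ((Fintype.card (box n K) : ℝ)⁻¹ : ℂ) • 1 := ⟨_, rfl⟩
  have hne : (0 : Idx n) ∈ box n K := mem_box.2 (by simp [photons])
  have hcard : 0 < (Fintype.card (box n K) : ℝ) := Nat.cast_pos.2 (Fintype.card_pos_iff.2 ⟨⟨_, hne⟩⟩)
  have hI : I.PosDef := eI ▸ Matrix.PosDef.one.smul (by exact_mod_cast inv_pos.2 hcard)
  have hIt : I.trace = 1 := by
    rw [eI, Matrix.trace_smul, Matrix.trace_one, smul_eq_mul]
    have : (Fintype.card (box n K) : ℂ) ≠ 0 := Nat.cast_ne_zero.2 (Nat.cast_pos.1 hcard).ne'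
    push_cast
    field_simp
  obtain ⟨P, eP⟩ : ∃ P : ℝ → Matrix (box n K) (box n K) ℂ,
      P = fun e => (((1 - max 0 (min e 1)) : ℝ) : ℂ) • M + ((max 0 (min e 1) : ℝ) : ℂ) • I := ⟨_, rfl⟩
  have hPc : Continuous P := by rw [eP]; fun_prop
  have hPpsd : ∀ e, (P e).PosSemidef := fun e => by
    rw [eP]
    exact (hM.smul (Complex.zero_le_real.2 (by linarith [max_le (zero_le_one (α := ℝ)) (min_le_right e 1)]))).add
      (hI.posSemidef.smul (Complex.zero_le_real.2 (le_max_left _ _)))
  have hP0 : P 0 = M := by simp [eP]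
  have hc1 : Continuous fun e => nent (P e) := continuous_nent P hPc hPpsd
  have hc2 : Continuous fun e => nent (att η (P e)) :=
    continuous_nent _ ((continuous_att_matrix η).comp hPc) fun e => att_posSemidef η (hPpsd e)
  have hev : ∀ᶠ e in 𝓝[>] (0 : ℝ), n * g (η * N) ≤ nent (att η (P e)) := by
    filter_upwards [Ioo_mem_nhdsGT zero_lt_one,
      nhdsWithin_le_nhds ((hc1.tendsto 0).eventually_const_lt (hP0.symm ▸ hS))] with e he hlt
    have hpd : (P e).PosDef := by
      rw [eP]
      simp only [min_eq_left he.2.le, max_eq_right he.1.le]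
      exact (hI.smul (Complex.zero_lt_real.2 he.1)).posSemidef_add
        (hM.smul (Complex.zero_le_real.2 (by linarith [he.2])))
    have htP : (P e).trace = 1 := by
      simp [eP, Matrix.trace_add, Matrix.trace_smul, htr, hIt]
    have h := flow_bound hR hpd htP hN (by rw [att_one]; exact hlt.le)
      (T := -Real.log η) (neg_nonneg.2 (Real.log_nonpos h0.le h1))
    rwa [neg_neg, Real.exp_log h0, mul_comm N η] at h
  have := ge_of_tendsto ((hc2.tendsto 0).mono_left nhdsWithin_le_nhds) hev
  rwa [hP0] at this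

theorem nent_comp_split {c : Idx n → Idx n → ℂ} {B F : Finset (Idx n)} (hFB : F ⊆ B)
    (hM : (Matrix.of fun a b : B => c a b).PosSemidef) :
    nent (Matrix.of fun a b : B => c a b) ≤ nent (Matrix.of fun a b : F => c a b)
      + ∑ a ∈ B \ F, Real.negMulLog (c a a).re := by
  classical
  obtain ⟨e, he⟩ : ∃ e : (F ⊕ (B \ F : Finset (Idx n))) ≃ B,
      ∀ x, ((e x : B) : Idx n) = Sum.elim (fun a : F => (a : Idx n))
        (fun a : (B \ F : Finset (Idx n)) => (a : Idx n)) x := by
    refine ⟨Equiv.ofBijective (Sum.elim (fun a : F => (⟨a, hFB a.2⟩ : B))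
      (fun a : (B \ F : Finset (Idx n)) => ⟨a, (Finset.mem_sdiff.1 a.2).1⟩)) ⟨?_, ?_⟩, ?_⟩
    · rintro (a | a) (b | b) h <;> simp only [Sum.elim_inl, Sum.elim_inr, Subtype.mk.injEq] at h
      · rw [Subtype.ext h]
      · exact absurd (h ▸ a.2) (Finset.mem_sdiff.1 b.2).2
      · exact absurd (h ▸ b.2) (Finset.mem_sdiff.1 a.2).2
      · rw [Subtype.ext h]
    · intro b
      by_cases hb : (b : Idx n) ∈ F
      · exact ⟨Sum.inl ⟨b, hb⟩, by simp⟩
      · exact ⟨Sum.inr ⟨b, Finset.mem_sdiff.2 ⟨b.2, hb⟩⟩, by simp⟩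
    · rintro (a | a) <;> rfl
  rw [← nent_reindex e.symm (Matrix.of fun a b : B => c a b)]
  have h2 : ((Matrix.reindex e.symm e.symm) (Matrix.of fun a b : B => c a b)).PosSemidef :=
    hM.submatrix _
  refine (nent_pinch h2).trans (le_of_eq ?_)
  congr 1
  · refine congrArg nent ?_
    funext a b
    simp [Matrix.toBlocks₁₁, he]
  · rw [← Finset.sum_coe_sort (B \ F) fun a => Real.negMulLog (c a a).re]
    exact Finset.sum_congr rfl fun a _ => by simp [he]

theorem box_tendsto (n : ℕ) : Tendsto (box n) atTop atTop :=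
  tendsto_atTop_finset_of_monotone (fun _ _ h _ ha => mem_box.2 ((mem_box.1 ha).trans h))
    fun a => ⟨photons a, mem_box.2 le_rfl⟩

theorem output_diag {η : ℝ} (h0 : 0 ≤ η) (h1 : η ≤ 1) {ρ ρC : Op n}
    (hC : IsOutput η ρ (vacuum n) ρC) (c : Idx n) :
    HasSum (fun d => coef η c d ^ 2 * (entry ρ (c + d) (c + d)).re) (entry ρC c c).re := by
  refine (Complex.reCLM.hasSum (hC.2 c c)).congr_fun fun d => ?_
  rw [Complex.reCLM_apply, outTerm_vacuum h0 h1, Complex.re_ofReal_mul, sq]

theorem finitePhotons_output {η : ℝ} (h0 : 0 ≤ η) (h1 : η ≤ 1) {ρ ρC : Op n} (hρ : IsState ρ)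
    (hE : FinitePhotons ρ) (hC : IsOutput η ρ (vacuum n) ρC) : FinitePhotons ρC := by
  have hd0 : ∀ a, 0 ≤ (photons a : ℝ) * (entry ρ a a).re := fun a =>
    mul_nonneg (Nat.cast_nonneg _) (diag_nonneg hρ.1 a)
  have hle : ∑' c, ENNReal.ofReal ((photons c : ℝ) * (entry ρC c c).re)
      ≤ ∑' a, ENNReal.ofReal ((photons a : ℝ) * (entry ρ a a).re) := by
    rw [← tsum_coef h0 h1 fun a => ENNReal.ofReal ((photons a : ℝ) * (entry ρ a a).re)]
    refine ENNReal.tsum_le_tsum fun c => ?_
    have hd := output_diag h0 h1 hC c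
    rw [← hd.tsum_eq, ← tsum_mul_left, ENNReal.ofReal_tsum_of_nonneg
      (fun d => mul_nonneg (Nat.cast_nonneg _) (mul_nonneg (sq_nonneg _) (diag_nonneg hρ.1 _)))
      (hd.summable.mul_left _)]
    refine ENNReal.tsum_le_tsum fun d => ?_
    rw [← ENNReal.ofReal_mul (sq_nonneg _)]
    refine ENNReal.ofReal_le_ofReal ?_
    rw [mul_left_comm]
    refine mul_le_mul_of_nonneg_left (mul_le_mul_of_nonneg_right ?_ (diag_nonneg hρ.1 _)) (sq_nonneg _)
    exact Nat.cast_le.2 (by rw [photons_add]; omega)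
  have hne : ∑' c, ENNReal.ofReal ((photons c : ℝ) * (entry ρC c c).re) ≠ ⊤ := by
    refine (hle.trans_lt ?_).ne
    rw [← ENNReal.ofReal_tsum_of_nonneg hd0 hE]
    exact ENNReal.ofReal_lt_top
  exact (ENNReal.summable_toReal hne).congr fun c =>
    ENNReal.toReal_ofReal (mul_nonneg (Nat.cast_nonneg _) (diag_nonneg hC.1.1 c))

theorem att_comp_apply (η : ℝ) (ρ : Op n) (c c' : box n K) :
    att η (comp ρ (box n K)) c c' = ∑ d ∈ (box n K).filter
        (fun d => (c : Idx n) + d ∈ box n K ∧ (c' : Idx n) + d ∈ box n K),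
      ((coef η c d * coef η c' d : ℝ) : ℂ) * entry ρ ((c : Idx n) + d) ((c' : Idx n) + d) := by
  rw [att_apply, Finset.sum_filter]
  refine Finset.sum_congr rfl fun d _ => ?_
  by_cases h : (c : Idx n) + d ∈ box n K ∧ (c' : Idx n) + d ∈ box n K
  · rw [if_pos h, ext, dif_pos h]; rfl
  · rw [if_neg h, ext, dif_neg h, mul_zero]

/-- The entropy photon-number inequality for a vacuum second input, from the finite inequality. -/
theorem output_entropy_ge (hR : RateBound n) {η : ℝ} (h0 : 0 ≤ η) (h1 : η ≤ 1) {ρ ρC : Op n}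
    (hρ : IsState ρ) (hE : FinitePhotons ρ) (hC : IsOutput η ρ (vacuum n) ρC) {N : ℝ} (hN : 0 ≤ N)
    (hS : ENNReal.ofReal (n * g N) ≤ entropy ρ) :
    ENNReal.ofReal (n * g (η * N)) ≤ entropy ρC := by
  classical
  rcases (mul_nonneg h0 hN).eq_or_lt with hz | hz
  · simp [← hz, g_zero]
  rcases Nat.eq_zero_or_pos n with hn | hn
  · subst hn; simp
  have hη : 0 < η := pos_of_mul_pos_left hz hN
  have hNp : 0 < N := pos_of_mul_pos_right hz h0
  obtain ⟨SA, hSA0, eSA, hSA⟩ := tendsto_comp hρ hE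
  obtain ⟨SC, hSC0, eSC, hSC⟩ := tendsto_comp hC.1 (finitePhotons_output h0 h1 hρ hE hC)
  rw [eSA, ENNReal.ofReal_le_ofReal_iff hSA0] at hS
  rw [eSC, ENNReal.ofReal_le_ofReal_iff hSC0]
  obtain ⟨M, eM⟩ : ∃ M : (K : ℕ) → Matrix (box n K) (box n K) ℂ, M = fun K => comp ρ (box n K) :=
    ⟨_, rfl⟩
  have hMp : ∀ K, (M K).PosSemidef := fun K => eM ▸ comp_posSemidef hρ.1 _
  obtain ⟨t, et⟩ : ∃ t : ℕ → ℝ, t = fun K => ∑ a ∈ box n K, (entry ρ a a).re := ⟨_, rfl⟩
  have htt : Tendsto t atTop (𝓝 1) := by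
    have h : Tendsto (fun s : Finset (Idx n) => ∑ a ∈ s, (entry ρ a a).re) atTop (𝓝 1) := hρ.2
    rw [et]
    exact h.comp (box_tendsto n)
  have hnt : Tendsto (fun K => nent (M K)) atTop (𝓝 SA) := eM ▸ hSA.comp (box_tendsto n)
  have htrace : ∀ K, (M K).trace = (t K : ℂ) := fun K => by
    have h : ∀ a, entry ρ a a = ((entry ρ a a).re : ℂ) := fun a =>
      Complex.ext rfl (by
        have := hρ.1.inner_nonneg_right (ket a)
        rw [Complex.le_def] at this
        simpa [entry] using this.2.symm)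
    rw [et, eM, Complex.ofReal_sum, ← Finset.sum_coe_sort (box n K)]
    exact Finset.sum_congr rfl fun a _ => h a
  have key : ∀ N', 0 < N' → N' < N → n * g (η * N') ≤ SC := by
    intro N' hN' hlt
    have hlt' : n * g N' < SA :=
      lt_of_lt_of_le (mul_lt_mul_of_pos_left (g_strictMono hN'.le hN hlt) (Nat.cast_pos.2 hn)) hS
    have hinv : Tendsto (fun K => (t K)⁻¹) atTop (𝓝 1) := by simpa using htt.inv₀ one_ne_zero
    have hnorm : Tendsto (fun K => (t K)⁻¹ * nent (M K) + Real.negMulLog (t K)⁻¹ * t K) atTop (𝓝 SA) := by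
      simpa using (hinv.mul hnt).add (((Real.continuous_negMulLog.tendsto _).comp hinv).mul htt)
    have hlow : ∀ᶠ K in atTop,
        t K * (n * g (η * N') - Real.negMulLog (t K)⁻¹ * t K) ≤ nent (att η (M K)) := by
      filter_upwards [htt.eventually_const_lt zero_lt_one, hnorm.eventually_const_lt hlt'] with K hK hK'
      have hM' : (((t K)⁻¹ : ℝ) : ℂ) • M K |>.PosSemidef :=
        (hMp K).smul (Complex.zero_le_real.2 (inv_nonneg.2 hK.le))
      have htr' : ((((t K)⁻¹ : ℝ) : ℂ) • M K).trace = 1 := by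
        rw [Matrix.trace_smul, htrace, smul_eq_mul, ← Complex.ofReal_mul, inv_mul_cancel₀ hK.ne',
          Complex.ofReal_one]
      have h := fin_bound hR hη h1 hM' htr' hN' (by
        rw [nent_smul (hMp K).1, htrace, Complex.ofReal_re]; exact hK')
      rw [att_smul, nent_smul (att_posSemidef η (hMp K)).1, trace_att h0 h1, htrace,
        Complex.ofReal_re] at h
      have h' := mul_le_mul_of_nonneg_left h hK.le
      rw [mul_add, mul_inv_cancel_left₀ hK.ne'] at h'
      linarith
    have hlowlim : Tendsto (fun K => t K * (n * g (η * N') - Real.negMulLog (t K)⁻¹ * t K)) atTop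
        (𝓝 (n * g (η * N'))) := by
      simpa using htt.mul ((tendsto_const_nhds (x := (n : ℝ) * g (η * N'))).sub
        (((Real.continuous_negMulLog.tendsto _).comp hinv).mul htt))
    refine le_of_forall_pos_le_add fun ε hε => ?_
    obtain ⟨W, eW⟩ : ∃ W : Idx n → ℝ, W = fun a =>
        (photons a : ℝ) * (entry ρC a a).re + Real.exp (-(photons a : ℝ)) := ⟨_, rfl⟩
    have hW : Summable W := eW ▸ (finitePhotons_output h0 h1 hρ hE hC).add (summable_exp_photons n)
    have hW0 : ∀ a, 0 ≤ W a := fun a => eW ▸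
      add_nonneg (mul_nonneg (Nat.cast_nonneg _) (diag_nonneg hC.1.1 a)) (Real.exp_pos _).le
    obtain ⟨F, hF1, hF2⟩ := ((hW.hasSum.eventually_const_lt
      (show (∑' a, W a) - ε / 3 < ∑' a, W a by linarith)).and
      (hSC.eventually_lt_const (show SC < SC + ε / 3 by linarith))).exists
    have hconv : Tendsto (fun K => nent (Matrix.of fun a b : F =>
        if h : (a : Idx n) ∈ box n K ∧ (b : Idx n) ∈ box n K then
          att η (M K) ⟨a, h.1⟩ ⟨b, h.2⟩ else 0)) atTop (𝓝 (nent (comp ρC F))) := by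
      obtain ⟨A, eA⟩ : ∃ A : ℕ → Matrix F F ℂ, A = fun K => Matrix.of fun a b : F =>
          if h : (a : Idx n) ∈ box n K ∧ (b : Idx n) ∈ box n K then
            att η (M K) ⟨a, h.1⟩ ⟨b, h.2⟩ else 0 := ⟨_, rfl⟩
      have hA : ∀ᶠ K in atTop, (A K).PosSemidef := by
        filter_upwards [(box_tendsto n).eventually_ge_atTop F] with K hK
        have : A K = (att η (M K)).submatrix (fun a : F => (⟨a, hK a.2⟩ : box n K))
            (fun a : F => (⟨a, hK a.2⟩ : box n K)) := by
          funext a b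
          rw [eA]
          exact dif_pos ⟨hK a.2, hK b.2⟩
        rw [this]
        exact (att_posSemidef η (hMp K)).submatrix _
      have hlimA : Tendsto A atTop (𝓝 (comp ρC F)) := by
        refine tendsto_pi_nhds.2 fun a => tendsto_pi_nhds.2 fun b => ?_
        have hfil : Tendsto (fun K => (box n K).filter
            (fun d => (a : Idx n) + d ∈ box n K ∧ (b : Idx n) + d ∈ box n K)) atTop atTop := by
          refine tendsto_atTop_finset_of_monotone (fun K L h d hd => ?_)
            fun d => ⟨photons ((a : Idx n) + d) + photons ((b : Idx n) + d), ?_⟩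
          · simp only [Finset.mem_filter, mem_box] at hd ⊢
            omega
          · simp only [Finset.mem_filter, mem_box, photons_add]
            omega
        refine Tendsto.congr' ?_ ((hC.2 a b).comp hfil)
        filter_upwards [(box_tendsto n).eventually_ge_atTop F] with K hK
        rw [eA]
        simp only [Function.comp_apply, Matrix.of_apply]
        rw [dif_pos ⟨hK a.2, hK b.2⟩, eM, att_comp_apply]
        exact Finset.sum_congr rfl fun d _ => outTerm_vacuum h0 h1 ρ a b d
      have hcont := continuous_nent (fun x : {M : Matrix F F ℂ // M.PosSemidef} => x.1)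
        continuous_subtype_val fun x => x.2
      obtain ⟨K0, hK0⟩ := eventually_atTop.1 hA
      have h3 := (hcont.tendsto ⟨_, comp_posSemidef hC.1.1 F⟩).comp
        (tendsto_subtype_rng.2 (hlimA.comp (tendsto_add_atTop_nat K0)) :
          Tendsto (fun K => (⟨A (K + K0), hK0 _ (Nat.le_add_left _ _)⟩ :
            {M : Matrix F F ℂ // M.PosSemidef})) atTop (𝓝 ⟨_, comp_posSemidef hC.1.1 F⟩))
      have h4 := (tendsto_add_atTop_iff_nat (f := fun K => nent (A K)) K0).1 h3
      rw [eA] at h4
      exact h4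
    obtain ⟨K, ⟨hKlow, hK1⟩, hKF, hKhigh⟩ := ((hlow.and (hlowlim.eventually_const_lt
      (show n * g (η * N') - ε / 6 < n * g (η * N') by linarith))).and
      (((box_tendsto n).eventually_ge_atTop F).and (hconv.eventually_lt_const
        (show nent (comp ρC F) < nent (comp ρC F) + ε / 6 by linarith)))).exists
    obtain ⟨cK, ecK⟩ : ∃ cK : Idx n → Idx n → ℂ, cK = fun a b =>
        if h : a ∈ box n K ∧ b ∈ box n K then att η (M K) ⟨a, h.1⟩ ⟨b, h.2⟩ else 0 := ⟨_, rfl⟩
    have hof : (Matrix.of fun a b : box n K => cK a b) = att η (M K) := by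
      funext a b
      simp [ecK]
    have hsplit := nent_comp_split (c := cK) hKF (hof ▸ att_posSemidef η (hMp K))
    rw [hof] at hsplit
    have htail : ∑ a ∈ box n K \ F, Real.negMulLog (cK a a).re ≤ ε / 3 := by
      have hb : ∀ a ∈ box n K \ F, Real.negMulLog (cK a a).re ≤ W a := by
        intro a ha
        have ha' := (Finset.mem_sdiff.1 ha).1
        have hx : (cK a a).re = ∑ d ∈ (box n K).filter (fun d => a + d ∈ box n K ∧ a + d ∈ box n K),
            coef η a d ^ 2 * (entry ρ (a + d) (a + d)).re := by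
          rw [ecK]
          simp only
          rw [dif_pos ⟨ha', ha'⟩, eM, att_comp_apply, Complex.re_sum]
          exact Finset.sum_congr rfl fun d _ => by rw [Complex.re_ofReal_mul, sq]
        have h0' : 0 ≤ (cK a a).re := hx ▸ Finset.sum_nonneg fun d _ =>
          mul_nonneg (sq_nonneg _) (diag_nonneg hρ.1 _)
        have hle : (cK a a).re ≤ (entry ρC a a).re := hx ▸ sum_le_hasSum _
          (fun d _ => mul_nonneg (sq_nonneg _) (diag_nonneg hρ.1 _)) (output_diag h0 h1 hC a)
        refine (negMulLog_le_cross h0' (Real.exp_pos (-(photons a : ℝ) - 1)).le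
          (fun h => absurd h (Real.exp_ne_zero _))).trans ?_
        rw [Real.log_exp, eW]
        have h2 : Real.exp (-(photons a : ℝ) - 1) ≤ Real.exp (-(photons a : ℝ)) :=
          Real.exp_le_exp.2 (by linarith)
        have h3 : (photons a : ℝ) * (cK a a).re ≤ (photons a : ℝ) * (entry ρC a a).re :=
          mul_le_mul_of_nonneg_left hle (Nat.cast_nonneg _)
        linarith
      refine (Finset.sum_le_sum hb).trans ?_
      have h := hW.sum_le_tsum (F ∪ (box n K \ F)) fun a _ => hW0 a
      rw [Finset.sum_union (Finset.disjoint_sdiff)] at h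
      linarith
    have hFeq : nent (Matrix.of fun a b : F => cK a b) < nent (comp ρC F) + ε / 6 := by
      rw [ecK]; exact hKhigh
    linarith
  have hlim : Tendsto (fun N' => (n : ℝ) * g (η * N')) (𝓝[<] N) (𝓝 (n * g (η * N))) :=
    ((continuous_const.mul (continuous_g.comp (continuous_const.mul continuous_id))).tendsto N).mono_left
      nhdsWithin_le_nhds
  exact le_of_tendsto hlim (by
    filter_upwards [Ioo_mem_nhdsLT hNp] with x hx using key x hx.1 hx.2)

/-- The entropy photon-number inequality for a vacuum second input. -/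
theorem epni_vacuum_of_rateBound (hR : RateBound n) {η : ℝ} (h0 : 0 ≤ η) (h1 : η ≤ 1) {ρ : Op n}
    (hρ : IsState ρ) (hE : FinitePhotons ρ) :
    (∃ ρC, IsOutput η ρ (vacuum n) ρC) ∧
      ∀ ρC, IsOutput η ρ (vacuum n) ρC → FinitePhotons ρC ∧
        ∀ N : ℝ, 0 ≤ N → ENNReal.ofReal (n * g N) ≤ entropy ρ →
          ENNReal.ofReal (n * g (η * N)) ≤ entropy ρC :=
  ⟨exists_output h0 h1 hρ, fun _ hC => ⟨finitePhotons_output h0 h1 hρ hE hC,
    fun _ hN hS => output_entropy_ge hR h0 h1 hρ hE hC hN hS⟩⟩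

end Vale.Agent.P369.Fock
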