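import Mathlib
import Vale.Agent.P369.Fock.Att

/-!
# P369: the entropy production as an integral of quantum Fisher informations
-/

namespace Vale.Agent.P369.Fock

open Matrix MeasureTheory Set Filter
open scoped ComplexOrder Topology

variable {n K : ℕ}

/-- The diagonal in the number basis of `U diag(lam) Uᴴ`. -/
noncomputable def pop (U : Matrix (box n K) (box n K) ℂ) (lam : box n K → ℝ) (a : box n K) : ℝ :=
  ∑ i, ‖U a i‖ ^ 2 * lam i

/-- The pairs leaving the truncated space: states with `K` photons. -/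
noncomputable def edge (U : Matrix (box n K) (box n K) ℂ) (lam : box n K → ℝ) : ℝ :=
  ∑ j : Fin n, ∑ a : box n K,
    if photons (a : Idx n) = K then ((a : Idx n) j + 1 : ℝ) * pop U lam a else 0

/-- The quantum Fisher information for the kernel `(q - p)² / (q + (x - 1) p)`, summed over modes. -/
noncomputable def fisher (U : Matrix (box n K) (box n K) ℂ) (lam : box n K → ℝ) (x : ℝ) : ℝ :=
  (∑ j, ∑ i, ∑ k, ‖(Uᴴ * annih n K j * U) k i‖ ^ 2
    * ((lam k - lam i) ^ 2 / (lam k + (x - 1) * lam i))) + edge U lam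

/-- The scalar integral behind the entropy production. -/
theorem integral_kernel {p q : ℝ} (hp : 0 < p) (hq : 0 < q) :
    IntegrableOn (fun x => (q - p) ^ 2 / (q + (x - 1) * p) / x ^ 2) (Ioi 1) ∧
      ∫ x in Ioi 1, (q - p) ^ 2 / (q + (x - 1) * p) / x ^ 2
        = q - p + p * (Real.log p - Real.log q) := by
  have hden : ∀ x ∈ Ici (1 : ℝ), 0 < q + (x - 1) * p := fun x hx => by
    nlinarith [Set.mem_Ici.1 hx]
  obtain ⟨F, eF⟩ : ∃ F : ℝ → ℝ, F = fun x =>
      p * (Real.log (q + (x - 1) * p) - Real.log x) - (q - p) / x := ⟨_, rfl⟩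
  have hF : ∀ x ∈ Ici (1 : ℝ), HasDerivAt F ((q - p) ^ 2 / (q + (x - 1) * p) / x ^ 2) x := by
    intro x hx
    have hx0 : x ≠ 0 := (zero_lt_one.trans_le (Set.mem_Ici.1 hx)).ne'
    have h1 := ((((hasDerivAt_id x).sub_const 1).mul_const p).const_add q).log (hden x hx).ne'
    have h2 := (Real.hasDerivAt_log hx0)
    have h3 := (hasDerivAt_inv hx0).const_mul (q - p)
    rw [eF]
    refine (((h1.sub h2).const_mul p).sub h3).congr_deriv ?_
    simp only [id]
    obtain ⟨D, eD⟩ : ∃ D, D = q + (x - 1) * p := ⟨_, rfl⟩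
    have hD : D ≠ 0 := eD ▸ (hden x hx).ne'
    rw [← eD]
    field_simp
    rw [eD]
    ring
  have hlim : Tendsto F atTop (𝓝 (p * Real.log p)) := by
    have h1 : Tendsto (fun x : ℝ => Real.log (p + (q - p) * x⁻¹)) atTop (𝓝 (Real.log p)) := by
      have h : Tendsto (fun x : ℝ => p + (q - p) * x⁻¹) atTop (𝓝 p) := by
        simpa using (tendsto_inv_atTop_zero.const_mul (q - p)).const_add p
      exact (Real.continuousAt_log hp.ne').tendsto.comp h
    have h2 : Tendsto (fun x : ℝ => p * Real.log (p + (q - p) * x⁻¹) - (q - p) * x⁻¹) atTop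
        (𝓝 (p * Real.log p)) := by
      simpa using (h1.const_mul p).sub (tendsto_inv_atTop_zero.const_mul (q - p))
    refine h2.congr' ?_
    filter_upwards [eventually_ge_atTop 1] with x hx
    have hx0 : (0 : ℝ) < x := zero_lt_one.trans_le hx
    rw [eF]
    simp only [div_eq_mul_inv]
    rw [← Real.log_div (hden x hx).ne' hx0.ne', div_eq_mul_inv]
    congr 2
    field_simp
    ring_nf
  have hnn : ∀ x ∈ Ioi (1 : ℝ), 0 ≤ (q - p) ^ 2 / (q + (x - 1) * p) / x ^ 2 := fun x hx =>
    div_nonneg (div_nonneg (sq_nonneg _) (hden x (Set.mem_Ici.2 (le_of_lt (Set.mem_Ioi.1 hx)))).le)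
      (sq_nonneg x)
  refine ⟨integrableOn_Ioi_deriv_of_nonneg' hF hnn hlim, ?_⟩
  rw [integral_Ioi_of_hasDerivAt_of_tendsto' hF (integrableOn_Ioi_deriv_of_nonneg' hF hnn hlim) hlim, eF]
  simp only [sub_self, zero_mul, add_zero, div_one, Real.log_one, sub_zero]
  ring

/-- The commutator of the truncated ladder operators of mode `j`. -/
theorem annih_mul_conj (j : Fin n) (a b : box n K) :
    (annih n K j * (annih n K j)ᴴ) a b = if a = b then
      (if photons (a : Idx n) = K then (0 : ℂ) else (((a : Idx n) j : ℕ) : ℂ) + 1) else 0 := by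
  have hph : photons (Function.update (a : Idx n) j ((a : Idx n) j + 1)) = photons (a : Idx n) + 1 := by
    rw [photons, photons, Finset.sum_update_of_mem (Finset.mem_univ j),
      ← Finset.add_sum_erase _ (a : Idx n) (Finset.mem_univ j), Finset.sdiff_singleton_eq_erase]
    ring
  rw [Matrix.mul_apply]
  simp only [Matrix.conjTranspose_apply]
  by_cases hK : photons (a : Idx n) = K
  · rw [Finset.sum_eq_zero fun c _ => ?_]
    · simp [hK]
    · rw [annih, if_neg, zero_mul]
      intro e
      have := mem_box.1 c.2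
      rw [e, hph] at this
      omega
  · have hc : Function.update (a : Idx n) j ((a : Idx n) j + 1) ∈ box n K :=
      mem_box.2 (by have := mem_box.1 a.2; omega)
    rw [Finset.sum_eq_single ⟨_, hc⟩]
    · by_cases hab : a = b
      · subst hab
        rw [if_pos rfl, if_neg hK, annih, if_pos rfl, RCLike.star_def, Complex.conj_ofReal,
          ← Complex.ofReal_mul, Real.mul_self_sqrt (Nat.cast_nonneg _)]
        simp
      · rw [if_neg hab]
        have : annih n K j b ⟨_, hc⟩ = 0 := by
          rw [annih, if_neg]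
          intro e
          refine hab (Subtype.ext (funext fun i => ?_))
          have := congrFun e i
          rcases eq_or_ne i j with rfl | hi
          · simpa using this
          · simpa [hi] using this
        simp [this]
    · intro x _ hx
      rw [annih, if_neg fun e => hx (Subtype.ext e), zero_mul]
    · intro h'; exact absurd (Finset.mem_univ _) h'

theorem sum_pop (U : Matrix (box n K) (box n K) ℂ) (hU' : Uᴴ * U = 1) (lam : box n K → ℝ) :
    ∑ a, pop U lam a = ∑ i, lam i := by
  simp only [pop]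
  rw [Finset.sum_comm]
  refine Finset.sum_congr rfl fun i _ => ?_
  have h := congrArg Complex.re (congrFun (congrFun hU' i) i)
  simp only [Matrix.mul_apply, Matrix.conjTranspose_apply, Matrix.one_apply_eq, RCLike.star_def,
    ← Complex.normSq_eq_conj_mul_self, Complex.re_sum, Complex.ofReal_re, Complex.one_re,
    Complex.normSq_eq_norm_sq] at h
  rw [← Finset.sum_mul, h, one_mul]

/-- The drift term: `tr(ρ [a_j, a_j†]) = 1` up to the boundary of the truncation. -/
theorem sum_drift (U : Matrix (box n K) (box n K) ℂ) (hU : U * Uᴴ = 1) (hU' : Uᴴ * U = 1)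
    (lam : box n K → ℝ) (hlam : ∑ i, lam i = 1) (j : Fin n) :
    ∑ i, ∑ k, ‖(Uᴴ * annih n K j * U) k i‖ ^ 2 * (lam k - lam i)
      = 1 - ∑ a : box n K,
          if photons (a : Idx n) = K then ((a : Idx n) j + 1 : ℝ) * pop U lam a else 0 := by
  obtain ⟨A, eA⟩ : ∃ A, A = Uᴴ * annih n K j * U := ⟨_, rfl⟩
  rw [← eA]
  obtain ⟨d, ed⟩ : ∃ d : box n K → ℝ, d = fun a : box n K =>
      (if photons (a : Idx n) = K then 0 else ((a : Idx n) j : ℝ) + 1) - ((a : Idx n) j : ℝ) := ⟨_, rfl⟩
  have hB : ∀ i, ∑ k, ‖A i k‖ ^ 2 - ∑ k, ‖A k i‖ ^ 2 = ∑ a, ‖U a i‖ ^ 2 * d a := by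
    intro i
    have h1 : (A * Aᴴ - Aᴴ * A) i i = ((∑ k, ‖A i k‖ ^ 2 - ∑ k, ‖A k i‖ ^ 2 : ℝ) : ℂ) := by
      simp only [Matrix.sub_apply, Matrix.mul_apply, Matrix.conjTranspose_apply, RCLike.star_def,
        Complex.mul_conj, ← Complex.normSq_eq_conj_mul_self, Complex.normSq_eq_norm_sq,
        Complex.ofReal_sub, Complex.ofReal_sum]
    have h2 : A * Aᴴ - Aᴴ * A
        = Uᴴ * (annih n K j * (annih n K j)ᴴ - (annih n K j)ᴴ * annih n K j) * U := by
      rw [eA]
      simp only [Matrix.mul_sub, Matrix.sub_mul, Matrix.conjTranspose_mul,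
        Matrix.conjTranspose_conjTranspose, Matrix.mul_assoc]
      simp only [← Matrix.mul_assoc U Uᴴ, hU, Matrix.one_mul]
    have h3 : (annih n K j * (annih n K j)ᴴ - (annih n K j)ᴴ * annih n K j)
        = Matrix.diagonal fun a => (d a : ℂ) := by
      ext a b
      rw [Matrix.sub_apply, annih_mul_conj, annih_conj_mul, Matrix.diagonal_apply, ed]
      split_ifs <;> simp_all
    rw [h2, h3, Matrix.mul_apply] at h1
    refine Complex.ofReal_injective (h1.symm.trans ?_)
    rw [Complex.ofReal_sum]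
    refine Finset.sum_congr rfl fun a _ => ?_
    rw [Matrix.mul_diagonal, Matrix.conjTranspose_apply, RCLike.star_def, mul_right_comm,
      ← Complex.normSq_eq_conj_mul_self, Complex.normSq_eq_norm_sq, Complex.ofReal_mul]
  calc ∑ i, ∑ k, ‖A k i‖ ^ 2 * (lam k - lam i)
      = ∑ i, lam i * (∑ k, ‖A i k‖ ^ 2 - ∑ k, ‖A k i‖ ^ 2) := by
        simp only [mul_sub, Finset.sum_sub_distrib, Finset.mul_sum]
        rw [Finset.sum_comm]
        simp only [mul_comm (lam _)]
    _ = ∑ a, d a * pop U lam a := by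
        simp only [hB, Finset.mul_sum, pop]
        rw [Finset.sum_comm]
        exact Finset.sum_congr rfl fun a _ => Finset.sum_congr rfl fun i _ => by ring
    _ = _ := by
        refine Eq.trans ?_ (congrArg (fun z : ℝ => z - _) ((sum_pop U hU' lam).trans hlam))
        rw [← Finset.sum_sub_distrib]
        refine Finset.sum_congr rfl fun a _ => ?_
        rw [ed]
        simp only
        split_ifs <;> ring

/-- The entropy production as an integral of Fisher informations. -/
theorem rate_eq_integral (U : Matrix (box n K) (box n K) ℂ) (hU : U * Uᴴ = 1) (hU' : Uᴴ * U = 1)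
    (lam : box n K → ℝ) (hpos : ∀ i, 0 < lam i) (hlam : ∑ i, lam i = 1) :
    IntegrableOn (fun x => fisher U lam x / x ^ 2) (Ioi 1) ∧
      rate U lam = (∫ x in Ioi 1, fisher U lam x / x ^ 2) - n := by
  obtain ⟨f, ef⟩ : ∃ f : (Fin n × box n K × box n K) → ℝ → ℝ, f = fun q x =>
      ‖(Uᴴ * annih n K q.1 * U) q.2.2 q.2.1‖ ^ 2
        * ((lam q.2.2 - lam q.2.1) ^ 2 / (lam q.2.2 + (x - 1) * lam q.2.1) / x ^ 2) := ⟨_, rfl⟩
  have hfi : ∀ q, IntegrableOn (f q) (Ioi 1) := fun q =>
    ef ▸ Integrable.const_mul (integral_kernel (hpos q.2.1) (hpos q.2.2)).1 _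
  have hedge : IntegrableOn (fun x : ℝ => edge U lam / x ^ 2) (Ioi 1)
      ∧ ∫ x in Ioi 1, edge U lam / x ^ 2 = edge U lam := by
    have e : ∀ x ∈ Ioi (1 : ℝ), edge U lam / x ^ 2 = edge U lam * x ^ (-2 : ℝ) := fun x hx => by
      rw [Real.rpow_neg (zero_lt_one.trans hx).le, Real.rpow_two, div_eq_mul_inv]
    refine ⟨(IntegrableOn.congr_fun ((integrableOn_Ioi_rpow_of_lt (by norm_num) zero_lt_one).const_mul _)
      (fun x hx => (e x hx).symm) measurableSet_Ioi), ?_⟩
    rw [setIntegral_congr_fun measurableSet_Ioi e, integral_const_mul,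
      integral_Ioi_rpow_of_lt (by norm_num) zero_lt_one]
    norm_num
  have efun : (fun x => fisher U lam x / x ^ 2)
      = fun x => (∑ q, f q x) + edge U lam / x ^ 2 := by
    funext x
    simp only [fisher, ef, Fintype.sum_prod_type, add_div, Finset.sum_div, mul_div_assoc]
  have hsum : IntegrableOn (fun x => ∑ q, f q x) (Ioi 1) :=
    integrable_finsetSum _ fun q _ => hfi q
  refine ⟨efun ▸ hsum.add hedge.1, ?_⟩
  rw [efun, integral_add hsum hedge.1, hedge.2, integral_finsetSum _ fun q _ => hfi q,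
    Fintype.sum_prod_type]
  simp only [ef, integral_const_mul, Fintype.sum_prod_type, (integral_kernel (hpos _) (hpos _)).2,
    mul_add, Finset.sum_add_distrib, sum_drift U hU hU' lam hlam]
  rw [Finset.sum_sub_distrib, rate, edge]
  simp
  ring

end Vale.Agent.P369.Fock
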